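import Crest.Agent.R318.Geo

/-! Completeness of a step. -/

set_option autoImplicit false
open Finset

namespace Crest.Agent.R318

lemma comp_exists_perm {N m : ℕ} {V : Finset ℕ} (h1 : V ⊆ range N) (h2 : V.card = m) :
    ∃ τ : Equiv.Perm (Fin N), ∀ v, (τ v : ℕ) < m ↔ (v : ℕ) ∈ V := by
  classical
  have hm : m ≤ N := by simpa [h2] using card_le_card h1
  have e1 : Fintype.card {v : Fin N // (v : ℕ) ∈ V} = m := by
    rw [Fintype.card_subtype, ← h2]
    refine card_bij (fun v _ => (v : ℕ)) (by simp) (fun a _ b _ e => Fin.ext e) fun b hb => ?_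
    exact ⟨⟨b, by simpa using h1 hb⟩, by simpa using hb, rfl⟩
  have e2 : Fintype.card {v : Fin N // (v : ℕ) < m} = m := by
    rw [Fintype.card_subtype]
    conv_rhs => rw [← card_range m]
    refine card_bij (fun v _ => (v : ℕ)) (by simp) (fun a _ b _ e => Fin.ext e) fun b hb => ?_
    have : b < m := by simpa using hb
    exact ⟨⟨b, by omega⟩, by simpa using this, rfl⟩
  let e := Fintype.equivOfCardEq (e1.trans e2.symm)
  refine ⟨e.extendSubtype, fun v => ⟨fun h => ?_, fun h => e.extendSubtype_mem v h⟩⟩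
  by_contra hv
  exact e.extendSubtype_not_mem v hv h

/-- The placement of the labels of a step. -/
def compPerm {N μ : ℕ} {X : Type} (τ : Equiv.Perm (Fin N)) (side : ℕ → ℕ → Bool)
    (σ : Equiv.Perm X) : Equiv.Perm (SX N μ X) where
  toFun
    | .inl v => .inl (τ v)
    | .inr (u, v, s, i, none) => .inr (u, v, xor s (side u v), i, none)
    | .inr (u, v, s, i, some y) => .inr (u, v, s, i, some (σ y))
  invFun
    | .inl v => .inl (τ.symm v)
    | .inr (u, v, s, i, none) => .inr (u, v, xor s (side u v), i, none)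
    | .inr (u, v, s, i, some y) => .inr (u, v, s, i, some (σ.symm y))
  left_inv := by rintro (v | ⟨u, v, s, i, _ | y⟩) <;> simp
  right_inv := by rintro (v | ⟨u, v, s, i, _ | y⟩) <;> simp

section
variable {S : Sys} {N μ m : ℕ} {adj : ℕ → ℕ → Bool} {τ : Equiv.Perm (Fin N)}
  {side : ℕ → ℕ → Bool} {σ : Equiv.Perm S.X}

lemma comp_V (v : Fin N) :
    (step S N μ m adj).q (.inl v) = v * (⟨N, μ, S.Z⟩ : Par).Per + (⟨N, μ, S.Z⟩ : Par).Wg + 1 ∧
    (step S N μ m adj).p (.inl v) + (step S N μ m adj).l (compPerm τ side σ (.inl v)) =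
      v * (⟨N, μ, S.Z⟩ : Par).Per +
        if (τ v : ℕ) < m then (⟨N, μ, S.Z⟩ : Par).Per + (⟨N, μ, S.Z⟩ : Par).Wg + 1 else 1 :=
  ⟨rfl, rfl⟩

lemma comp_O (u v : Fin N) (s : Bool) (i : Fin μ) :
    (step S N μ m adj).q (.inr (u, v, s, i, none)) =
      (⟨N, μ, S.Z⟩ : Par).cel u v s i + 2 * (⟨N, μ, S.Z⟩ : Par).off u v ∧
    (step S N μ m adj).p (.inr (u, v, s, i, none)) +
      (step S N μ m adj).l (compPerm τ side σ (.inr (u, v, s, i, none))) =
      (⟨N, μ, S.Z⟩ : Par).cel u v s i +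
        bif (!(xor s (side u v)) && adj u v) then 6 * (⟨N, μ, S.Z⟩ : Par).off u v
        else (⟨N, μ, S.Z⟩ : Par).off u v :=
  ⟨rfl, rfl⟩

lemma comp_W (u v : Fin N) (s : Bool) (i : Fin μ) (y : S.X) :
    (step S N μ m adj).q (.inr (u, v, s, i, some y)) =
      (⟨N, μ, S.Z⟩ : Par).cel u v s i + 3 * (⟨N, μ, S.Z⟩ : Par).off u v +
        (⟨N, μ, S.Z⟩ : Par).sc s i * S.q y ∧
    (step S N μ m adj).p (.inr (u, v, s, i, some y)) +
      (step S N μ m adj).l (compPerm τ side σ (.inr (u, v, s, i, some y))) =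
      (⟨N, μ, S.Z⟩ : Par).cel u v s i + 3 * (⟨N, μ, S.Z⟩ : Par).off u v +
        (⟨N, μ, S.Z⟩ : Par).sc s i * (S.p y + S.l (σ y)) := by
  refine ⟨rfl, ?_⟩
  change _ + 2 * _ + _ * S.p y + (_ + _ * S.l (σ y)) = _
  ring

end

lemma comp_own_le (P : Par) {u v : ℕ} (hu : u < P.N) (hv : v < P.N) (s : Bool) {i : ℕ}
    (hi : i < P.μ) : P.cel u v s i + 6 * P.off u v ≤ P.base u v s + P.H := by
  have h1 := P.cel_add_le hu hv s (i := i + 1) hi
  rw [P.cel_succ] at h1
  omega

lemma comp_top (P : Par) {g : ℕ} (hg : g < P.N) : (g + 1) * P.Per ≤ P.N * P.Per :=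
  Nat.mul_le_mul_right _ hg

lemma comp_gad_eq (P : Par) {a b θ : ℕ} (h1 : a * P.Per + P.Wg + 1 ≤ θ)
    (h2 : θ < a * P.Per + (P.Per + P.Wg + 1)) (h3 : b * P.Per + P.Wg + 1 ≤ θ)
    (h4 : θ < b * P.Per + (P.Per + P.Wg + 1)) : a = b := by
  rcases lt_trichotomy a b with h | h | h
  · have := Nat.mul_le_mul_right P.Per (Nat.succ_le_of_lt h)
    rw [Nat.succ_mul] at this; omega
  · exact h
  · have := Nat.mul_le_mul_right P.Per (Nat.succ_le_of_lt h)
    rw [Nat.succ_mul] at this; omega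

/-- **Completeness of a step.** -/
theorem step_comp {S : Sys} {N μ m T r : ℕ} {adj : ℕ → ℕ → Bool} (hS : S.WF) (hc : S.Comp T r)
    (hy : Yes T N m adj) : (step S N μ m adj).Comp T (r + 1) := by
  classical
  obtain ⟨σ, hZ, hload⟩ := hc
  obtain ⟨V, side, hV, hcnt⟩ := hy
  choose τ hτ using fun j => comp_exists_perm (hV j).1 (hV j).2
  set P : Par := ⟨N, μ, S.Z⟩ with hP
  have hZ1 : 1 ≤ P.Z := hS.Z_pos
  have hW := P.W_pos hZ1
  have hPer : P.Per = 2 * P.Wg + 2 := rfl
  have hwall : ∀ (j : Fin T) (s : Bool) (i : Fin μ) (y : S.X),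
      P.sc s i * (S.p y + S.l (σ j y)) ≤ P.W := fun j s i y =>
    (Nat.mul_le_mul_left _ (hZ j y)).trans (P.sc_mul_le hZ1 s i.2)
  refine ⟨fun j => compPerm (τ j) (side j) (σ j), fun j x => ?_, fun θ => ?_⟩
  · change _ ≤ (N + 1) * P.Per
    rw [Nat.succ_mul]
    rcases x with v | ⟨u, v, s, i, _ | y⟩
    · rw [(comp_V v).2, ← hP]
      have := comp_top P (g := v) v.2
      rw [Nat.succ_mul] at this
      change _ ≤ N * P.Per at this
      split_ifs <;> omega
    · rw [(comp_O u v s i).2, ← hP]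
      have h1 := comp_own_le P u.2 v.2 s i.2
      have h2 := P.base_add_le u.2 v.2 s
      have h3 := comp_top P (P.gad_lt u.2 v.2 s)
      change _ ≤ N * P.Per at h3
      cases (!(xor s (side j u v)) && adj u v) <;> simp only [cond_true, cond_false] <;> omega
    · rw [(comp_W u v s i y).2, ← hP]
      have h1 := comp_own_le P u.2 v.2 s i.2
      have h2 := P.base_add_le u.2 v.2 s
      have h3 := comp_top P (P.gad_lt u.2 v.2 s)
      change _ ≤ N * P.Per at h3
      have h4 := hwall j s i y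
      have h5 := P.four_W_le_off u v
      omega
  · set L : Fin T × SX N μ S.X → Prop := fun y => (step S N μ m adj).q y.2 ≤ θ ∧
      θ < (step S N μ m adj).p y.2 +
        (step S N μ m adj).l (compPerm (τ y.1) (side y.1) (σ y.1) y.2) with hL
    have LV : ∀ j (v : Fin N), L (j, .inl v) → (v : ℕ) ∈ V j ∧ v * P.Per + P.Wg + 1 ≤ θ ∧
        θ < v * P.Per + (P.Per + P.Wg + 1) := by
      rintro j v ⟨h1, h2⟩
      rw [(comp_V (τ := τ j) (side := side j) (σ := σ j) v).1, ← hP] at h1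
      rw [(comp_V v).2, ← hP] at h2
      split_ifs at h2 with h3
      · exact ⟨(hτ j v).1 h3, h1, h2⟩
      · omega
    have LO : ∀ j (u v : Fin N) s (i : Fin μ), L (j, .inr (u, v, s, i, none)) →
        side j u v = s ∧ adj u v = true ∧ P.cel u v s i + 2 * P.off u v ≤ θ ∧
          θ < P.cel u v s i + 6 * P.off u v := by
      rintro j u v s i ⟨h1, h2⟩
      rw [(comp_O (τ := τ j) (side := side j) (σ := σ j) u v s i).1, ← hP] at h1
      rw [(comp_O u v s i).2, ← hP] at h2
      revert h2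
      cases hs : side j u v <;> cases s <;> cases ha : adj u v <;> simp <;> omega
    have LW : ∀ j (u v : Fin N) s (i : Fin μ) y, L (j, .inr (u, v, s, i, some y)) →
        P.cel u v s i + 3 * P.off u v + P.sc s i * S.q y ≤ θ ∧
          θ < P.cel u v s i + 3 * P.off u v + P.sc s i * (S.p y + S.l (σ j y)) := by
      rintro j u v s i y ⟨h1, h2⟩
      rw [(comp_W (τ := τ j) (side := side j) (σ := σ j) u v s i y).1, ← hP] at h1
      rw [(comp_W u v s i y).2, ← hP] at h2
      exact ⟨h1, h2⟩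
    let A : Fin T × SX N μ S.X → Prop := fun y => L y ∧ ∃ v, y.2 = .inl v
    let B : Fin T × SX N μ S.X → Prop := fun y => L y ∧ ∃ u v s i, y.2 = .inr (u, v, s, i, none)
    let C : Fin T × SX N μ S.X → Prop :=
      fun y => L y ∧ ∃ u v s i z, y.2 = .inr (u, v, s, i, some z)
    have split : cnt L ≤ (cnt A + cnt B) + cnt C := by
      refine le_trans (cnt_mono (Q := fun y => (A y ∨ B y) ∨ C y) ?_)
        ((cnt_or_le _ _).trans (Nat.add_le_add_right (cnt_or_le _ _) _))
      rintro ⟨j, v | ⟨u, v, s, i, _ | y⟩⟩ h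
      · exact .inl (.inl ⟨h, v, rfl⟩)
      · exact .inl (.inr ⟨h, u, v, s, i, rfl⟩)
      · exact .inr ⟨h, u, v, s, i, y, rfl⟩
    have hA : ∀ Q : Fin T → Prop, (∀ j (v : Fin N), L (j, .inl v) → Q j) → cnt A ≤ cnt Q := by
      intro Q hQ
      refine cnt_le_of_inj Prod.fst ?_ ?_
      · rintro ⟨j, _⟩ ⟨h, v, rfl⟩
        exact hQ j v h
      · rintro ⟨j, _⟩ ⟨j', _⟩ ⟨h, v, rfl⟩ ⟨h', v', rfl⟩ (rfl : j = j')
        obtain ⟨-, h1, h2⟩ := LV _ _ h
        obtain ⟨-, h3, h4⟩ := LV _ _ h'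
        rw [Fin.ext (comp_gad_eq P h1 h2 h3 h4)]
    have hAB : cnt A + cnt B ≤ T := by
      by_cases hB : ∃ y, B y
      · obtain ⟨⟨j₀, _⟩, h₀, u, v, s, i, rfl⟩ := hB
        obtain ⟨-, ha, h1, h2⟩ := LO _ _ _ _ _ h₀
        have h3 := comp_own_le P u.2 v.2 s i.2
        have h4 := P.base_add_le u.2 v.2 s
        have h5 := P.le_base u v s
        have h6 := P.base_le_cel u v s i
        have same : ∀ j (u' v' : Fin N) s' (i' : Fin μ), L (j, .inr (u', v', s', i', none)) →
            u' = u ∧ v' = v ∧ s' = s ∧ i' = i := by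
          intro j u' v' s' i' h
          obtain ⟨-, -, h7, h8⟩ := LO _ _ _ _ _ h
          have h9 := comp_own_le P u'.2 v'.2 s' i'.2
          have h10 := P.base_le_cel u' v' s' i'
          have e : (u' : ℕ) = u ∧ (v' : ℕ) = v ∧ s' = s := by
            by_contra hne
            rcases P.base_disj u'.2 v'.2 u.2 v.2 hne with h11 | h11 <;> omega
          obtain ⟨e1, e2, rfl⟩ := e
          obtain rfl := Fin.ext e1
          obtain rfl := Fin.ext e2
          refine ⟨rfl, rfl, rfl, Fin.ext ?_⟩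
          rcases lt_trichotomy (i' : ℕ) i with h11 | h11 | h11
          · have := P.cel_mono u' v' s' h11; omega
          · exact h11
          · have := P.cel_mono u' v' s' h11; omega
        refine le_trans (Nat.add_le_add (hA _ fun j w h => ?_) ?_) (hcnt u v s ha)
        · obtain ⟨h7, h8, h9⟩ := LV _ _ h
          rw [Nat.succ_mul] at h4
          rwa [← comp_gad_eq P h8 h9 (b := gad u v s) (by omega) (by omega)]
        · refine cnt_le_of_inj Prod.fst ?_ ?_
          · rintro ⟨j, _⟩ ⟨h, u', v', s', i', rfl⟩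
            obtain ⟨rfl, rfl, rfl, rfl⟩ := same _ _ _ _ _ h
            exact (LO _ _ _ _ _ h).1
          · rintro ⟨j, _⟩ ⟨j', _⟩ ⟨h, u', v', s', i', rfl⟩ ⟨h', u'', v'', s'', i'', rfl⟩
              (rfl : j = j')
            obtain ⟨rfl, rfl, rfl, rfl⟩ := same _ _ _ _ _ h
            obtain ⟨rfl, rfl, rfl, rfl⟩ := same _ _ _ _ _ h'
            rfl
      · push Not at hB
        rw [cnt_eq_zero.2 hB, Nat.add_zero]
        simpa [cnt_true] using hA (fun _ => True) fun _ _ _ => trivial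
    have hC : cnt C ≤ T * r := by
      by_cases hC : ∃ y, C y
      · obtain ⟨⟨j₀, _⟩, h₀, u, v, s, i, z, rfl⟩ := hC
        obtain ⟨h1, h2⟩ := LW _ _ _ _ _ _ h₀
        have h3 := hwall j₀ s i z
        have h4 := P.four_W_le_off u v
        have same : ∀ j (u' v' : Fin N) s' (i' : Fin μ) z',
            L (j, .inr (u', v', s', i', some z')) → u' = u ∧ v' = v ∧ s' = s ∧ i' = i := by
          intro j u' v' s' i' z' h
          obtain ⟨h5, h6⟩ := LW _ _ _ _ _ _ h
          have h7 := hwall j s' i' z'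
          have h8 := P.four_W_le_off u' v'
          have e : (u' : ℕ) = u ∧ (v' : ℕ) = v ∧ s' = s ∧ (i' : ℕ) = i := by
            by_contra hne
            rcases P.cel_disj u'.2 v'.2 u.2 v.2 i'.2.le i.2.le hne with h11 | h11 <;> omega
          exact ⟨Fin.ext e.1, Fin.ext e.2.1, e.2.2.1, Fin.ext e.2.2.2⟩
        have hsc := P.sc_pos hZ1 s i
        refine le_trans (cnt_le_of_rel
          (fun x (y : Fin T × S.X) => x = (y.1, .inr (u, v, s, i, some y.2))) ?_ ?_)
          (hload ((θ - (P.cel u v s i + 3 * P.off u v)) / P.sc s i))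
        · rintro ⟨j, _⟩ ⟨h, u', v', s', i', z', rfl⟩
          obtain ⟨rfl, rfl, rfl, rfl⟩ := same _ _ _ _ _ _ h
          obtain ⟨h5, h6⟩ := LW _ _ _ _ _ _ h
          refine ⟨(j, z'), ⟨?_, ?_⟩, rfl⟩
          · rw [Nat.le_div_iff_mul_le hsc, Nat.mul_comm]
            change _ * S.q z' ≤ _
            omega
          · rw [Nat.div_lt_iff_lt_mul hsc]
            change _ < (S.p z' + S.l (σ j z')) * _
            rw [Nat.mul_comm (S.p z' + _)]
            omega
        · rintro _ _ y - - rfl rfl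
          rfl
      · push Not at hC
        rw [cnt_eq_zero.2 hC]
        exact Nat.zero_le _
    change cnt L ≤ _
    rw [Nat.mul_succ]
    omega

end Crest.Agent.R318
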