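import Mathlib
import Crest.Prelude.Def_BinPacking

/-!
# Row 318 (bin packing): definitions

Every bin of the instances built here holds three items: a *source* at position `p`, a *label* of
length `l` and a *sink* at position `q`; they fit together exactly when `p + l ≤ q`.
A system `Sys` lists, for every index `x`, one source, one label (the home label of `x`) and one
sink.  A source with its label is an *arrow* from `p` to `p + l`.

`step S N μ m adj` builds a new system from `S` and a graph `adj` on `N` vertices: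
* vertex `v` owns a *gadget* of width `Per`, one source at its left end; `m` of the home labels of
  these sources are *mega* labels (longer than a gadget);
* every ordered pair `(u,v)` (a *colour*) owns two *intervals* (side `false` in gadget `u`, side
  `true` in gadget `v`), each cut into `μ` *cells* of width `4 * off u v`; a cell holds one own source
  and a scaled copy (*wall*) of `S`; if `adj u v` the `μ` home labels of side `false` are long.
All labels of colour `(u,v)` carry the private offset `off u v`; offsets and the scales of the walls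
grow geometrically, so that a label used in a smaller colour or wall jumps out of it.
-/

set_option autoImplicit false
open Finset

namespace Crest.Agent.R318

/-- Number of elements with a property. -/
noncomputable def cnt {X : Type} [Fintype X] (P : X → Prop) : ℕ :=
  open Classical in (univ.filter P).card

/-- A partial map that is injective where it is defined. -/
def PInj {X : Type} (f : X → Option X) : Prop :=
  ∀ x x' a, f x = some a → f x' = some a → x = x'

/-- Sources `p`, sinks `q`, home labels `l`, all bounded by `Z`. -/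
structure Sys where
  X : Type
  [fin : Fintype X]
  p : X → ℕ
  q : X → ℕ
  l : X → ℕ
  Z : ℕ

attribute [instance] Sys.fin

namespace Sys

/-- End point of the arrow starting at `x` (a missing label counts as length `0`). -/
def en (S : Sys) (lab : S.X → Option S.X) (x : S.X) : ℕ := S.p x + (lab x).elim 0 S.l

/-- A partial assignment of labels and sinks to the sources. -/
structure Valid (S : Sys) (lab snk : S.X → Option S.X) : Prop where
  lab_inj : PInj lab
  snk_inj : PInj snk
  fits : ∀ x y, snk x = some y → S.en lab x ≤ S.q y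

/-- Every assignment missing at most `D` labels and `κ` sinks misses at least `g` sinks. -/
def Sound (S : Sys) (D κ g : ℕ) : Prop :=
  ∀ lab snk, S.Valid lab snk → cnt (fun x => lab x = none) ≤ D →
    cnt (fun x => snk x = none) ≤ κ → g ≤ cnt (fun x => snk x = none)

structure WF (S : Sys) : Prop where
  Z_pos : 1 ≤ S.Z
  p_lt : ∀ x, S.p x < S.Z
  q_lt : ∀ x, S.q x < S.Z
  l_pos : ∀ x, 1 ≤ S.l x
  l_le : ∀ x, S.l x ≤ S.Z

/-- `T` placements of the labels whose total load is at most `T * r` everywhere. -/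
def Comp (S : Sys) (T r : ℕ) : Prop :=
  ∃ σ : Fin T → Equiv.Perm S.X, (∀ j x, S.p x + S.l (σ j x) ≤ S.Z) ∧
    ∀ θ, cnt (fun y : Fin T × S.X => S.q y.2 ≤ θ ∧ θ < S.p y.2 + S.l (σ y.1 y.2)) ≤ T * r

/-- No source left of `θ` has its own sink right of `θ`. -/
def Clear (S : Sys) (θ : ℕ) : Prop := ∀ x, S.p x ≤ θ → S.q x ≤ θ

/-- The source `x` lies left of `θ` and uses no sink left of `θ`. -/
def Cross (S : Sys) (snk : S.X → Option S.X) (θ : ℕ) (x : S.X) : Prop :=
  S.p x ≤ θ ∧ ∀ y, snk x = some y → θ < S.q y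

/-- The triples `(p, q, l)`. -/
def dat (S : Sys) (x : S.X) : ℕ × ℕ × ℕ := (S.p x, S.q x, S.l x)

end Sys

/-- The empty system. -/
def Sys.empty : Sys where
  X := Empty
  p := fun x => x.elim
  q := fun x => x.elim
  l := fun x => x.elim
  Z := 1

/-! ### Geometry of one step -/

/-- Number of vertices, number of cells per interval, size of the wall system. -/
structure Par where
  N : ℕ
  μ : ℕ
  Z : ℕ

/-- The gadget holding side `s` of colour `(u,v)`. -/
def gad (u v : ℕ) (s : Bool) : ℕ := bif s then v else u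

namespace Par

def W (P : Par) : ℕ := P.Z ^ (2 * P.μ)
def Y (P : Par) : ℕ := 4 * (P.μ + 1)
def col (P : Par) (u v : ℕ) : ℕ := u * P.N + v
def off (P : Par) (u v : ℕ) : ℕ := P.W * P.Y ^ (P.col u v + 1)
def H (P : Par) : ℕ := P.W * P.Y ^ (P.N * P.N + 1)
def Wg (P : Par) : ℕ := 2 * P.N * P.H
def Per (P : Par) : ℕ := 2 * P.Wg + 2
def slot (P : Par) (u v : ℕ) (s : Bool) : ℕ := bif s then P.N + u else v
def base (P : Par) (u v : ℕ) (s : Bool) : ℕ := gad u v s * P.Per + P.Wg + 2 + P.slot u v s * P.H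
def cel (P : Par) (u v : ℕ) (s : Bool) (i : ℕ) : ℕ := P.base u v s + i * (4 * P.off u v)
def idx (P : Par) (s : Bool) (i : ℕ) : ℕ := bif s then P.μ + i else i
def sc (P : Par) (s : Bool) (i : ℕ) : ℕ := P.Z ^ P.idx s i
/-- The clear point just right of the wall in cell `(u,v,s,i)`. -/
def th (P : Par) (u v : ℕ) (s : Bool) (i : ℕ) : ℕ :=
  P.cel u v s i + 3 * P.off u v + P.sc s i * P.Z - 1

/-- Data of the source of vertex `v`. -/
def datV (P : Par) (m v : ℕ) : ℕ × ℕ × ℕ :=
  (v * P.Per, v * P.Per + P.Wg + 1, if v < m then P.Per + P.Wg + 1 else 1)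
/-- Data of the own source of a cell; `b` tells whether the home label is long. -/
def datO (P : Par) (b : Bool) (u v : ℕ) (s : Bool) (i : ℕ) : ℕ × ℕ × ℕ :=
  (P.cel u v s i, P.cel u v s i + 2 * P.off u v, bif b then 6 * P.off u v else P.off u v)
/-- Data of an element of the wall of a cell. -/
def datW (P : Par) (u v : ℕ) (s : Bool) (i : ℕ) (t : ℕ × ℕ × ℕ) : ℕ × ℕ × ℕ :=
  (P.cel u v s i + 2 * P.off u v + P.sc s i * t.1, P.cel u v s i + 3 * P.off u v + P.sc s i * t.2.1,
    P.off u v + P.sc s i * t.2.2)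

end Par

/-- Index type of a step. -/
abbrev SX (N μ : ℕ) (X : Type) : Type := Fin N ⊕ (Fin N × Fin N × Bool × Fin μ × Option X)

/-- Data of a step. -/
def stepDat (S : Sys) (N μ m : ℕ) (adj : ℕ → ℕ → Bool) : SX N μ S.X → ℕ × ℕ × ℕ
  | .inl v => (⟨N, μ, S.Z⟩ : Par).datV m v
  | .inr (u, v, s, i, none) => (⟨N, μ, S.Z⟩ : Par).datO (!s && adj u v) u v s i
  | .inr (u, v, s, i, some y) => (⟨N, μ, S.Z⟩ : Par).datW u v s i (S.dat y)

/-- One step of the construction. -/
@[reducible] def step (S : Sys) (N μ m : ℕ) (adj : ℕ → ℕ → Bool) : Sys where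
  X := SX N μ S.X
  p := fun x => (stepDat S N μ m adj x).1
  q := fun x => (stepDat S N μ m adj x).2.1
  l := fun x => (stepDat S N μ m adj x).2.2
  Z := (N + 1) * (⟨N, μ, S.Z⟩ : Par).Per

/-- Colour class (`0` for the vertex sources). -/
def cl1 {N μ : ℕ} {X : Type} : SX N μ X → ℕ
  | .inl _ => 0
  | .inr (u, v, _) => u * N + v + 1

/-- Wall class (`0` outside the walls). -/
def cl2 {N μ : ℕ} {X : Type} : SX N μ X → ℕ
  | .inr (u, v, s, i, some _) => (u * N + v) * (2 * μ) + (bif s then μ + i else i) + 1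
  | _ => 0

/-- The element `y` of the wall in cell `(u,v,s,i)`. -/
abbrev wall {N μ : ℕ} {X : Type} (u v : Fin N) (s : Bool) (i : Fin μ) (y : X) : SX N μ X :=
  .inr (u, v, s, i, some y)

/-- All sources of the wall in cell `(u,v,s,i)` use labels of the colour `(u,v)`. -/
def Clean {N μ : ℕ} {X : Type} (lab : SX N μ X → Option (SX N μ X)) (u v : Fin N) (s : Bool)
    (i : Fin μ) : Prop :=
  ∀ y, ∃ a, lab (wall u v s i y) = some a ∧ cl1 a = u * N + v + 1

/-! ### Graphs -/

/-- No independent set of size `m` among the vertices `0, …, n - 1`. -/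
def No (n m : ℕ) (adj : ℕ → ℕ → Bool) : Prop :=
  ∀ C : Finset ℕ, C ⊆ range n → m ≤ C.card → ∃ u ∈ C, ∃ v ∈ C, adj u v = true

/-- A `T`-fold fractional independent set of size `m` (`T = 1`: an independent set). -/
def Yes (T n m : ℕ) (adj : ℕ → ℕ → Bool) : Prop :=
  ∃ (V : Fin T → Finset ℕ) (side : Fin T → ℕ → ℕ → Bool),
    (∀ j, V j ⊆ range n ∧ (V j).card = m) ∧
    ∀ u v s, adj u v = true → cnt (fun j => gad u v s ∈ V j) + cnt (fun j => side j u v = s) ≤ T

/-- Disjoint copies of a graph on `n` vertices. -/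
def copies (n : ℕ) (adj : ℕ → ℕ → Bool) (u v : ℕ) : Bool :=
  decide (u / n = v / n) && adj (u % n) (v % n)

/-- The literal of vertex `u` of the graph of a formula with at most three literals per clause. -/
def lit (F : List (List (ℕ × Bool))) (u : ℕ) : ℕ × Bool :=
  (F.getD (u / 3) []).getD (u % 3 % (F.getD (u / 3) []).length) (0, false)

/-- Conflict graph of a formula, on `3 * F.length` vertices. -/
def satAdj (F : List (List (ℕ × Bool))) (u v : ℕ) : Bool :=
  !decide (u = v) && (decide (u / 3 = v / 3) ||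
    (decide ((lit F u).1 = (lit F v).1) && !decide ((lit F u).2 = (lit F v).2)))

/-- The complete graph. -/
def fullAdj (u v : ℕ) : Bool := !decide (u = v)

/-! ### The recursion -/

def kN (n κ D : ℕ) : ℕ := (D + κ + 1) * n
def kE (N κ D : ℕ) : ℕ := D + 2 * (N + 2 * (N * N) * κ)
def kμ (N κ D : ℕ) : ℕ := kE N κ D + (kE N κ D + 2) * κ + 1
def kD (N μ κ D : ℕ) : ℕ := D + 2 * (N + 2 * (N * N) * μ * (1 + κ))

/-- The system of depth `r` that tolerates `D` missing labels. -/
def sys (n m κ : ℕ) (adj : ℕ → ℕ → Bool) : ℕ → ℕ → Sys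
  | 0, _ => Sys.empty
  | r + 1, D => step (sys n m κ adj r (kD (kN n κ D) (kμ (kN n κ D) κ D) κ D)) (kN n κ D)
      (kμ (kN n κ D) κ D) (kN m κ D) (copies n adj)

/-- List form of a step. -/
def stepL (L : List (ℕ × ℕ × ℕ)) (P : Par) (m : ℕ) (adj : ℕ → ℕ → Bool) : List (ℕ × ℕ × ℕ) :=
  (List.range P.N).map (P.datV m) ++
    (List.range P.N).flatMap fun u => (List.range P.N).flatMap fun v =>
      [false, true].flatMap fun s => (List.range P.μ).flatMap fun i =>
        P.datO (!s && adj u v) u v s i :: L.map (P.datW u v s i)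

/-- List form of `sys`: the data and the bound `Z`. -/
def sysL (n m κ : ℕ) (adj : ℕ → ℕ → Bool) : ℕ → ℕ → List (ℕ × ℕ × ℕ) × ℕ
  | 0, _ => ([], 1)
  | r + 1, D =>
    let R := sysL n m κ adj r (kD (kN n κ D) (kμ (kN n κ D) κ D) κ D)
    let P : Par := ⟨kN n κ D, kμ (kN n κ D) κ D, R.2⟩
    (stepL R.1 P (kN m κ D) (copies n adj), (kN n κ D + 1) * P.Per)

/-- The list `L` lists the values of `f`, with multiplicity. -/
def Rep {α ι : Type} [Fintype ι] (L : List α) (f : ι → α) : Prop :=
  (L : Multiset α) = ∑ x, ({f x} : Multiset α)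

/-! ### Items -/

/-- Data after adding `d` dummy triples. -/
def extDat (S : Sys) (d : ℕ) : S.X ⊕ Fin d → ℕ × ℕ × ℕ
  | .inl x => (S.p x + S.Z, S.q x + S.Z, S.l x)
  | .inr _ => (0, 3 * S.Z, 0)

/-- List form of `extDat`. -/
def extL (L : List (ℕ × ℕ × ℕ)) (Z d : ℕ) : List (ℕ × ℕ × ℕ) :=
  L.map (fun t => (t.1 + Z, t.2.1 + Z, t.2.2)) ++ List.replicate d (0, 3 * Z, 0)

def srcSz (M : ℕ) (t : ℕ × ℕ × ℕ) : ℚ := 11 / 20 + (t.1 : ℚ) / (100 * M)
def labSz (M : ℕ) (t : ℕ × ℕ × ℕ) : ℚ := 1 / 5 + (t.2.2 : ℚ) / (100 * M)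
def snkSz (M : ℕ) (t : ℕ × ℕ × ℕ) : ℚ := 1 / 4 - (t.2.1 : ℚ) / (100 * M)

/-- Size of the source (`0`), label (`1`) or sink (`2`) of a triple bounded by `M`. -/
def itemSz (M : ℕ) (t : ℕ × ℕ × ℕ) (k : Fin 3) : ℚ := ![srcSz M t, labSz M t, snkSz M t] k

/-- The sizes of all items. -/
def sizeOf3 {W : Type} (M : ℕ) (t : W → ℕ × ℕ × ℕ) (x : W × Fin 3) : ℚ := itemSz M (t x.1) x.2

/-- List form of `sizeOf3`. -/
def itemsL (M : ℕ) (L : List (ℕ × ℕ × ℕ)) : List ℚ :=
  L.flatMap fun t => [srcSz M t, labSz M t, snkSz M t]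

/-- All entries of the triples are at most `M`. -/
def Bdd {W : Type} (M : ℕ) (t : W → ℕ × ℕ × ℕ) : Prop :=
  ∀ x, (t x).1 ≤ M ∧ (t x).2.1 ≤ M ∧ (t x).2.2 ≤ M

/-- A `T`-fold perfect packing into triples. -/
def Fold {W : Type} (T : ℕ) (t : W → ℕ × ℕ × ℕ) : Prop :=
  ∃ f g : Equiv.Perm (Fin T × W), ∀ β, (t β.2).1 + (t (f β).2).2.2 ≤ (t (g β).2).2.1

end Crest.Agent.R318
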