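import Crest.Agent.R318.Defs

/-! Generic counting lemmas. -/

set_option autoImplicit false
open Finset

namespace Crest.Agent.R318

variable {X : Type} [Fintype X]

lemma cnt_eq (P : X → Prop) [DecidablePred P] : cnt P = (univ.filter P).card := by
  unfold cnt; congr

lemma cnt_mono {P Q : X → Prop} (h : ∀ x, P x → Q x) : cnt P ≤ cnt Q := by
  classical
  rw [cnt_eq, cnt_eq]
  exact card_le_card fun x hx => by simpa using h x (by simpa using hx)

lemma cnt_congr {P Q : X → Prop} (h : ∀ x, P x ↔ Q x) : cnt P = cnt Q :=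
  le_antisymm (cnt_mono fun x => (h x).1) (cnt_mono fun x => (h x).2)

lemma cnt_le_card (P : X → Prop) : cnt P ≤ Fintype.card X := by
  classical
  rw [cnt_eq]; exact card_le_univ _

lemma cnt_or_le (P Q : X → Prop) : cnt (fun x => P x ∨ Q x) ≤ cnt P + cnt Q := by
  classical
  rw [cnt_eq, cnt_eq, cnt_eq, filter_or]; exact card_union_le _ _

lemma cnt_add_not (P : X → Prop) : cnt P + cnt (fun x => ¬ P x) = Fintype.card X := by
  classical
  rw [cnt_eq, cnt_eq, card_filter_add_card_filter_not, card_univ]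

lemma cnt_split (P Q : X → Prop) :
    cnt P = cnt (fun x => P x ∧ Q x) + cnt (fun x => P x ∧ ¬ Q x) := by
  classical
  rw [cnt_eq, cnt_eq, cnt_eq, ← filter_filter, ← filter_filter, card_filter_add_card_filter_not]

lemma cnt_eq_zero {P : X → Prop} : cnt P = 0 ↔ ∀ x, ¬ P x := by
  classical
  rw [cnt_eq, card_eq_zero, filter_eq_empty_iff]; simp

lemma cnt_pos {P : X → Prop} : 0 < cnt P ↔ ∃ x, P x := by
  rw [pos_iff_ne_zero, Ne, cnt_eq_zero]; simp

/-- An injective relation compares counts. -/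
lemma cnt_le_of_rel {Y : Type} [Fintype Y] {P : X → Prop} {Q : Y → Prop} (R : X → Y → Prop)
    (h1 : ∀ x, P x → ∃ y, Q y ∧ R x y) (h2 : ∀ x x' y, P x → P x' → R x y → R x' y → x = x') :
    cnt P ≤ cnt Q := by
  classical
  rw [cnt_eq, cnt_eq]
  choose f hf using h1
  refine card_le_card_of_forall_subsingleton R (fun x hx => ?_) (fun y _ => ?_)
  · have hx' : P x := by simpa using hx
    exact ⟨f x hx', by simpa using (hf x hx').1, (hf x hx').2⟩
  · intro x hx x' hx'
    simp only [mem_univ, true_and, Set.mem_ofPred_eq, mem_filter] at hx hx'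
    exact h2 x x' y hx.1 hx'.1 hx.2 hx'.2

lemma cnt_le_of_inj {Y : Type} [Fintype Y] {P : X → Prop} {Q : Y → Prop} (f : X → Y)
    (h1 : ∀ x, P x → Q (f x)) (h2 : ∀ x x', P x → P x' → f x = f x' → x = x') :
    cnt P ≤ cnt Q :=
  cnt_le_of_rel (fun x y => f x = y) (fun x hx => ⟨_, h1 x hx, rfl⟩)
    fun x x' _ hx hx' e e' => h2 x x' hx hx' (e.trans e'.symm)

/-- Cover by few small classes. -/
lemma cnt_le_mul {Y : Type} [Fintype Y] {P : X → Prop} {Q : Y → Prop} (R : X → Y → Prop) (k : ℕ)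
    (h1 : ∀ x, P x → ∃ y, Q y ∧ R x y) (h2 : ∀ y, Q y → cnt (fun x => R x y) ≤ k) :
    cnt P ≤ cnt Q * k := by
  classical
  rw [cnt_eq, cnt_eq]
  calc (univ.filter P).card ≤ ((univ.filter Q).biUnion fun y => univ.filter fun x => R x y).card := by
        refine card_le_card fun x hx => ?_
        obtain ⟨y, h3, h4⟩ := h1 x (by simpa using hx)
        simp only [mem_biUnion, mem_filter, mem_univ, true_and]
        exact ⟨y, h3, h4⟩
    _ ≤ _ := card_biUnion_le_card_mul _ _ _ fun y hy => by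
        rw [← cnt_eq]; exact h2 y (by simpa using hy)

lemma cnt_true : cnt (fun _ : X => True) = Fintype.card X := by
  rw [cnt_eq]; simp

/-- Matched pairs counted from both sides. -/
lemma gen_pairs {f : X → Option X} (hf : PInj f) (P Q : X → Prop) :
    cnt (fun x => P x ∧ ∃ a, f x = some a ∧ Q a) = cnt (fun a => Q a ∧ ∃ x, f x = some a ∧ P x) := by
  refine le_antisymm (cnt_le_of_rel (fun x a => f x = some a) ?_ ?_)
    (cnt_le_of_rel (fun a x => f x = some a) ?_ ?_)
  · rintro x ⟨hx, a, h1, h2⟩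
    exact ⟨a, ⟨h2, x, h1, hx⟩, h1⟩
  · exact fun x x' a _ _ h1 h2 => hf x x' a h1 h2
  · rintro a ⟨ha, x, h1, h2⟩
    exact ⟨x, ⟨h2, a, h1, ha⟩, h1⟩
  · exact fun a a' x _ _ h1 h2 => Option.some_injective _ (h1.symm.trans h2)

lemma gen_unmatched {f : X → Option X} (hf : PInj f) (P : X → Prop) :
    cnt (fun x => P x ∧ ¬ ∃ a, f x = some a ∧ P a) =
      cnt (fun a => P a ∧ ¬ ∃ x, f x = some a ∧ P x) := by
  have h1 := cnt_split P fun x => ∃ a, f x = some a ∧ P a
  have h2 := cnt_split P fun a => ∃ x, f x = some a ∧ P x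
  have h3 := gen_pairs hf P P
  omega

/-- As many labels are unused as sources have no label. -/
lemma cnt_unused {f : X → Option X} (hf : PInj f) :
    cnt (fun a => ¬ ∃ x, f x = some a) = cnt (fun x => f x = none) := by
  have := gen_unmatched hf fun _ => True
  simp only [true_and, and_true] at this
  rw [← this]
  refine cnt_congr fun x => ?_
  cases f x <;> simp

/-- **Lemma A.** At a clear point at most as many arrows cross as sinks are missing. -/
lemma cross_le (S : Sys) {lab snk : S.X → Option S.X} (h : S.Valid lab snk) {θ : ℕ}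
    (hθ : S.Clear θ) : cnt (S.Cross snk θ) ≤ cnt (fun x => snk x = none) := by
  have h1 : cnt (fun x => S.p x ≤ θ) ≤ cnt (fun x => S.q x ≤ θ) := cnt_mono hθ
  have h2 := cnt_split (fun x => S.p x ≤ θ) (S.Cross snk θ)
  have h3 := cnt_split (fun y => S.q y ≤ θ) fun y => ∃ x, snk x = some y ∧ True
  have h4 : cnt (S.Cross snk θ) ≤ cnt (fun x => S.p x ≤ θ ∧ S.Cross snk θ x) :=
    cnt_mono fun x hx => ⟨hx.1, hx⟩
  have h5 : cnt (fun y => S.q y ≤ θ ∧ ¬ ∃ x, snk x = some y ∧ True) ≤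
      cnt (fun y => ¬ ∃ x, snk x = some y) := cnt_mono fun y hy => by simpa using hy.2
  have h6 : cnt (fun x => True ∧ ∃ y, snk x = some y ∧ S.q y ≤ θ) ≤
      cnt (fun x => S.p x ≤ θ ∧ ¬ S.Cross snk θ x) := by
    refine cnt_mono ?_
    rintro x ⟨-, y, e, hy⟩
    exact ⟨(Nat.le_add_right _ _).trans ((h.fits x y e).trans hy),
      fun hc => absurd (hc.2 y e) (not_lt.2 hy)⟩
  rw [gen_pairs h.snk_inj] at h6
  rw [cnt_unused h.snk_inj] at h5
  omega

/-- An arrow that passes over `θ` crosses `θ`. -/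
lemma cross_of_en (S : Sys) {lab snk : S.X → Option S.X} (h : S.Valid lab snk) {θ : ℕ} {x : S.X}
    (h1 : S.p x ≤ θ) (h2 : θ < S.en lab x) : S.Cross snk θ x :=
  ⟨h1, fun y hy => h2.trans_le (h.fits x y hy)⟩

/-- **Privacy.** If few labels are used in a smaller class, every class keeps almost all its
labels. -/
lemma privacy {lab : X → Option X} (h : PInj lab) (cl : X → ℕ) {U : ℕ}
    (hU : cnt (fun x => ∃ a, lab x = some a ∧ cl x < cl a) ≤ U) (j : ℕ) :
    cnt (fun x => cl x = j ∧ ¬ ∃ a, lab x = some a ∧ cl a = j)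
        ≤ cnt (fun x => lab x = none) + 2 * U ∧
      cnt (fun a => cl a = j ∧ ¬ ∃ x, lab x = some a ∧ cl x = j)
        ≤ cnt (fun x => lab x = none) + 2 * U := by
  have h1 := gen_unmatched h fun x => j ≤ cl x
  have h2 : cnt (fun a => j ≤ cl a ∧ ¬ ∃ x, lab x = some a ∧ j ≤ cl x) ≤
      cnt (fun a => (¬ ∃ x, lab x = some a) ∨ ∃ x, lab x = some a ∧ cl x < cl a) := by
    refine cnt_mono fun a ⟨ha, hn⟩ => ?_
    by_cases he : ∃ x, lab x = some a
    · obtain ⟨x, hx⟩ := he
      exact Or.inr ⟨x, hx, (not_le.1 fun hc => hn ⟨x, hx, hc⟩).trans_le ha⟩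
    · exact Or.inl he
  have h3 := cnt_or_le (fun a => ¬ ∃ x, lab x = some a) fun a => ∃ x, lab x = some a ∧ cl x < cl a
  have h4 : cnt (fun a => ∃ x, lab x = some a ∧ cl x < cl a) ≤
      cnt (fun x => ∃ a, lab x = some a ∧ cl x < cl a) := by
    refine cnt_le_of_rel (fun a x => lab x = some a) ?_ ?_
    · rintro a ⟨x, e, hx⟩
      exact ⟨x, ⟨a, e, hx⟩, e⟩
    · exact fun a a' x _ _ h1 h2 => Option.some_injective _ (h1.symm.trans h2)
  have h5 : cnt (fun x => cl x = j ∧ ¬ ∃ a, lab x = some a ∧ cl a = j) ≤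
      cnt (fun x => (j ≤ cl x ∧ ¬ ∃ a, lab x = some a ∧ j ≤ cl a) ∨
        ∃ a, lab x = some a ∧ cl x < cl a) := by
    refine cnt_mono fun x ⟨hx, hn⟩ => ?_
    by_cases he : ∃ a, lab x = some a ∧ j ≤ cl a
    · obtain ⟨a, e, ha⟩ := he
      exact Or.inr ⟨a, e, hx ▸ lt_of_le_of_ne ha fun hc => hn ⟨a, e, hc.symm⟩⟩
    · exact Or.inl ⟨hx.ge, he⟩
  have h6 := cnt_or_le (fun x => j ≤ cl x ∧ ¬ ∃ a, lab x = some a ∧ j ≤ cl a)
    fun x => ∃ a, lab x = some a ∧ cl x < cl a
  have h7 := gen_unmatched h fun x => cl x = j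
  rw [cnt_unused h] at h3
  omega

/-- **Hall.** If the load is at most the number of dummies, the arrows can be matched to sinks. -/
lemma exists_match {K : Type} [Fintype K] (e q : X → ℕ)
    (h : ∀ θ, cnt (fun y => q y ≤ θ ∧ θ < e y) ≤ Fintype.card K) :
    ∃ f : Equiv.Perm (X ⊕ K), ∀ y y', f (.inl y) = .inl y' → e y ≤ q y' := by
  classical
  let t : X → Finset (X ⊕ K) := fun y => (univ.filter fun y' => e y ≤ q y').disjSum univ
  obtain ⟨g, hg, hgt⟩ := (all_card_le_biUnion_card_iff_exists_injective t).1 fun s => by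
    rcases s.eq_empty_or_nonempty with rfl | hs
    · simp
    obtain ⟨y₀, hy₀, hmin⟩ := s.exists_min_image e hs
    have h1 : s.card ≤ cnt (fun y => e y₀ ≤ q y ∨ (q y < e y₀ ∧ e y₀ ≤ e y)) := by
      rw [cnt_eq]
      refine card_le_card fun y hy => ?_
      have := hmin y hy
      simp only [mem_filter, mem_univ, true_and]
      omega
    have h2 := cnt_or_le (fun y => e y₀ ≤ q y) fun y => q y < e y₀ ∧ e y₀ ≤ e y
    have h3 : cnt (fun y => q y < e y₀ ∧ e y₀ ≤ e y) ≤ Fintype.card K :=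
      (cnt_mono fun y hy => by omega).trans (h (e y₀ - 1))
    have h4 : (t y₀).card = cnt (fun y => e y₀ ≤ q y) + Fintype.card K := by
      rw [card_disjSum, cnt_eq, card_univ]
    have h5 := card_le_card (subset_biUnion_of_mem t hy₀)
    omega
  obtain ⟨f, hf⟩ := Equiv.Perm.exists_extending_pair Sum.inl g Sum.inl_injective hg
  refine ⟨f, fun y y' hy => ?_⟩
  have := hgt y
  rw [← hf, hy] at this
  simpa [t] using this

end Crest.Agent.R318
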