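import Crest.Agent.R318.Gen

/-! Arithmetic of the layout of one step. -/

set_option autoImplicit false
open Finset

namespace Crest.Agent.R318

namespace Par

variable (P : Par)

lemma W_pos (hZ : 1 ≤ P.Z) : 1 ≤ P.W := by
  exact Nat.one_le_pow _ _ hZ

lemma four_W_le_off (u v : ℕ) : 4 * P.W ≤ P.off u v := by
  unfold off
  rw [mul_comm 4]
  refine Nat.mul_le_mul_left _ ?_
  have h1 : 4 ≤ P.Y := by unfold Y; omega
  exact h1.trans (Nat.le_self_pow (by omega) _)

lemma sc_pos (hZ : 1 ≤ P.Z) (s : Bool) (i : ℕ) : 1 ≤ P.sc s i := by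
  exact Nat.one_le_pow _ _ hZ

lemma sc_mul_le (hZ : 1 ≤ P.Z) (s : Bool) {i : ℕ} (hi : i < P.μ) : P.sc s i * P.Z ≤ P.W := by
  unfold sc W
  rw [← pow_succ]
  refine Nat.pow_le_pow_right hZ ?_
  cases s <;> simp only [idx, cond_true, cond_false] <;> omega

lemma sc_mul_le_sc (hZ : 1 ≤ P.Z) {s s' : Bool} {i i' : ℕ} (h : P.idx s i < P.idx s' i') :
    P.sc s i * P.Z ≤ P.sc s' i' := by
  unfold sc
  rw [← pow_succ]
  exact Nat.pow_le_pow_right hZ h

lemma off_mono {u v u' v' : ℕ} (h : P.col u v < P.col u' v') :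
    (P.μ + 1) * (4 * P.off u v) ≤ P.off u' v' := by
  have h1 : 1 ≤ P.Y := by unfold Y; omega
  have h2 : (P.μ + 1) * (4 * P.off u v) = P.W * P.Y ^ (P.col u v + 2) := by
    unfold off
    rw [pow_succ P.Y (P.col u v + 1)]
    unfold Y
    ring
  rw [h2]
  exact Nat.mul_le_mul_left _ (Nat.pow_le_pow_right h1 (by omega))

lemma off_le_H {u v : ℕ} (hu : u < P.N) (hv : v < P.N) : (P.μ + 1) * (4 * P.off u v) ≤ P.H := by
  have h1 : 1 ≤ P.Y := by unfold Y; omega
  have h2 : (P.μ + 1) * (4 * P.off u v) = P.W * P.Y ^ (P.col u v + 2) := by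
    unfold off
    rw [pow_succ P.Y (P.col u v + 1)]
    unfold Y
    ring
  have h3 : P.col u v < P.N * P.N := by
    unfold col
    have : (u + 1) * P.N ≤ P.N * P.N := Nat.mul_le_mul_right _ hu
    nlinarith
  rw [h2]
  exact Nat.mul_le_mul_left _ (Nat.pow_le_pow_right h1 (by omega))

lemma col_inj {u v u' v' : ℕ} (hv : v < P.N) (hv' : v' < P.N) (h : P.col u v = P.col u' v') :
    u = u' ∧ v = v' := by
  unfold col at h
  have h1 : u = u' := by
    rcases lt_trichotomy u u' with h1 | h1 | h1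
    · have : (u + 1) * P.N ≤ u' * P.N := Nat.mul_le_mul_right _ h1
      nlinarith
    · exact h1
    · have : (u' + 1) * P.N ≤ u * P.N := Nat.mul_le_mul_right _ h1
      nlinarith
  subst h1
  omega

lemma idx_lt (s : Bool) {i : ℕ} (hi : i < P.μ) : P.idx s i < 2 * P.μ := by
  cases s <;> simp only [idx, cond_true, cond_false] <;> omega

lemma idx_inj {s s' : Bool} {i i' : ℕ} (hi : i < P.μ) (hi' : i' < P.μ)
    (h : P.idx s i = P.idx s' i') : s = s' ∧ i = i' := by
  cases s <;> cases s' <;> simp only [idx, cond_true, cond_false] at h <;>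
    first | exact ⟨rfl, by omega⟩ | omega

lemma le_base (u v : ℕ) (s : Bool) : gad u v s * P.Per + P.Wg + 2 ≤ P.base u v s := by
  unfold base
  omega

lemma base_add_le {u v : ℕ} (hu : u < P.N) (hv : v < P.N) (s : Bool) :
    P.base u v s + P.H ≤ (gad u v s + 1) * P.Per := by
  have h1 : P.slot u v s + 1 ≤ 2 * P.N := by
    cases s <;> simp only [slot, cond_true, cond_false] <;> omega
  have h2 : (P.slot u v s + 1) * P.H ≤ P.Wg := Nat.mul_le_mul_right _ h1
  have h3 : P.Per = 2 * P.Wg + 2 := rfl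
  unfold base
  rw [add_mul, one_mul] at h2 ⊢
  omega

lemma base_disj {u v u' v' : ℕ} {s s' : Bool} (hu : u < P.N) (hv : v < P.N) (hu' : u' < P.N)
    (hv' : v' < P.N) (h : ¬ (u = u' ∧ v = v' ∧ s = s')) :
    P.base u v s + P.H ≤ P.base u' v' s' ∨ P.base u' v' s' + P.H ≤ P.base u v s := by
  have a1 := P.base_add_le hu hv s
  have a2 := P.base_add_le hu' hv' s'
  have b1 := P.le_base u v s
  have b2 := P.le_base u' v' s'
  rcases lt_trichotomy (gad u v s) (gad u' v' s') with h1 | h1 | h1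
  · have : (gad u v s + 1) * P.Per ≤ gad u' v' s' * P.Per := Nat.mul_le_mul_right _ h1
    omega
  · have h2 : P.slot u v s ≠ P.slot u' v' s' := by
      intro h2
      cases s <;> cases s' <;> simp only [slot, gad, cond_true, cond_false] at h1 h2 <;>
        first | exact h ⟨by omega, by omega, rfl⟩ | omega
    unfold base
    rw [h1]
    rcases lt_or_gt_of_ne h2 with h3 | h3
    · have : (P.slot u v s + 1) * P.H ≤ P.slot u' v' s' * P.H := Nat.mul_le_mul_right _ h3
      rw [add_mul, one_mul] at this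
      omega
    · have : (P.slot u' v' s' + 1) * P.H ≤ P.slot u v s * P.H := Nat.mul_le_mul_right _ h3
      rw [add_mul, one_mul] at this
      omega
  · have : (gad u' v' s' + 1) * P.Per ≤ gad u v s * P.Per := Nat.mul_le_mul_right _ h1
    omega

lemma base_le_cel (u v : ℕ) (s : Bool) (i : ℕ) : P.base u v s ≤ P.cel u v s i := by
  unfold cel
  omega

lemma cel_succ (u v : ℕ) (s : Bool) (i : ℕ) :
    P.cel u v s (i + 1) = P.cel u v s i + 4 * P.off u v := by
  unfold cel
  ring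

lemma cel_mono (u v : ℕ) (s : Bool) {i i' : ℕ} (h : i < i') :
    P.cel u v s i + 4 * P.off u v ≤ P.cel u v s i' := by
  have : (i + 1) * (4 * P.off u v) ≤ i' * (4 * P.off u v) := Nat.mul_le_mul_right _ h
  rw [add_mul, one_mul] at this
  unfold cel
  omega

/-- The cells `0, …, μ` (the last one is empty) lie inside the slot of the interval. -/
lemma cel_add_le {u v : ℕ} (hu : u < P.N) (hv : v < P.N) (s : Bool) {i : ℕ} (hi : i ≤ P.μ) :
    P.cel u v s i + 4 * P.off u v ≤ P.base u v s + P.H := by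
  have h1 : (i + 1) * (4 * P.off u v) ≤ (P.μ + 1) * (4 * P.off u v) :=
    Nat.mul_le_mul_right _ (by omega)
  have h2 := P.off_le_H hu hv
  rw [add_mul i, one_mul] at h1
  unfold cel
  omega

lemma cel_disj {u v u' v' : ℕ} {s s' : Bool} {i i' : ℕ} (hu : u < P.N) (hv : v < P.N)
    (hu' : u' < P.N) (hv' : v' < P.N) (hi : i ≤ P.μ) (hi' : i' ≤ P.μ)
    (h : ¬ (u = u' ∧ v = v' ∧ s = s' ∧ i = i')) :
    P.cel u v s i + 4 * P.off u v ≤ P.cel u' v' s' i' ∨
      P.cel u' v' s' i' + 4 * P.off u' v' ≤ P.cel u v s i := by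
  by_cases h1 : u = u' ∧ v = v' ∧ s = s'
  · obtain ⟨rfl, rfl, rfl⟩ := h1
    have h2 : i ≠ i' := fun h2 => h ⟨rfl, rfl, rfl, h2⟩
    rcases lt_or_gt_of_ne h2 with h3 | h3
    · exact Or.inl (P.cel_mono u v s h3)
    · exact Or.inr (P.cel_mono u v s h3)
  · have a1 := P.cel_add_le hu hv s hi
    have a2 := P.cel_add_le hu' hv' s' hi'
    have b1 := P.base_le_cel u v s i
    have b2 := P.base_le_cel u' v' s' i'
    rcases P.base_disj hu hv hu' hv' h1 with h2 | h2 <;> omega

lemma gad_lt {u v : ℕ} (hu : u < P.N) (hv : v < P.N) (s : Bool) : gad u v s < P.N := by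
  cases s <;> simp only [gad, cond_true, cond_false] <;> assumption

end Par

lemma geo_cel_le (P : Par) {u v : ℕ} (hu : u < P.N) (hv : v < P.N) (s : Bool) {i : ℕ}
    (hi : i ≤ P.μ) : P.cel u v s i + 4 * P.off u v ≤ P.N * P.Per :=
  (P.cel_add_le hu hv s hi).trans ((P.base_add_le hu hv s).trans
    (Nat.mul_le_mul_right _ (P.gad_lt hu hv s)))

lemma geo_vert (P : Par) {u v : ℕ} (hu : u < P.N) (hv : v < P.N) (s : Bool) {i : ℕ}
    (hi : i ≤ P.μ) {θ w : ℕ} (h1 : P.cel u v s i ≤ θ) (h2 : θ < P.cel u v s i + 4 * P.off u v)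
    (h : w * P.Per ≤ θ) : w * P.Per + P.Wg + 1 ≤ θ := by
  have a1 := P.cel_add_le hu hv s hi
  have a2 := P.base_add_le hu hv s
  have a3 := P.le_base u v s
  have a4 := P.base_le_cel u v s i
  have h3 : w < gad u v s + 1 := by
    by_contra h3
    have : (gad u v s + 1) * P.Per ≤ w * P.Per := Nat.mul_le_mul_right _ (by omega)
    omega
  have : w * P.Per ≤ gad u v s * P.Per := Nat.mul_le_mul_right _ (by omega)
  omega

variable {S : Sys} {N μ m : ℕ} {adj : ℕ → ℕ → Bool}

/-- Elements of a cell lie in the cell. -/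
lemma step_cell (hS : S.WF) (u v : Fin N) (s : Bool) (i : Fin μ) (o : Option S.X) :
    (⟨N, μ, S.Z⟩ : Par).cel u v s i ≤ (step S N μ m adj).p (.inr (u, v, s, i, o)) ∧
    (step S N μ m adj).p (.inr (u, v, s, i, o)) ≤ (⟨N, μ, S.Z⟩ : Par).th u v s i ∧
    (⟨N, μ, S.Z⟩ : Par).cel u v s i ≤ (step S N μ m adj).q (.inr (u, v, s, i, o)) ∧
    (step S N μ m adj).q (.inr (u, v, s, i, o)) ≤ (⟨N, μ, S.Z⟩ : Par).th u v s i ∧
    (⟨N, μ, S.Z⟩ : Par).th u v s i <
      (⟨N, μ, S.Z⟩ : Par).cel u v s i + 4 * (⟨N, μ, S.Z⟩ : Par).off u v ∧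
    (⟨N, μ, S.Z⟩ : Par).off u v ≤ (step S N μ m adj).l (.inr (u, v, s, i, o)) := by
  set P : Par := ⟨N, μ, S.Z⟩ with hP
  have hZ : 1 ≤ P.Z := hS.Z_pos
  have h1 := P.W_pos hZ
  have h2 := P.four_W_le_off u v
  have h3 := P.sc_mul_le hZ s (i := i) i.2
  have h4 := P.sc_pos hZ s i
  have h5 : 1 ≤ P.sc s i * P.Z := Nat.mul_pos h4 hZ
  cases o with
  | none =>
    simp only [step, stepDat, Par.datO, Par.th, ← hP]
    cases (!s && adj u v) <;> simp only [cond_true, cond_false] <;> omega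
  | some y =>
    have h6 : P.sc s i * (S.p y + 1) ≤ P.sc s i * P.Z := Nat.mul_le_mul_left _ (hS.p_lt y)
    have h7 : P.sc s i * (S.q y + 1) ≤ P.sc s i * P.Z := Nat.mul_le_mul_left _ (hS.q_lt y)
    rw [mul_add, mul_one] at h6 h7
    simp only [step, stepDat, Par.datW, Par.th, Sys.dat, ← hP]
    omega

lemma step_wf (hS : S.WF) : (step S N μ m adj).WF := by
  set P : Par := ⟨N, μ, S.Z⟩ with hP
  have hZ : 1 ≤ P.Z := hS.Z_pos
  have hPer : P.Per = 2 * P.Wg + 2 := rfl
  have hW := P.W_pos hZ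
  have hz : (step S N μ m adj).Z = N * P.Per + P.Per := by
    simp only [step, ← hP]
    ring
  have hcell : ∀ (u v : Fin N) (s : Bool) (i : Fin μ),
      P.cel u v s i + 4 * P.off u v ≤ N * P.Per := fun u v s i => geo_cel_le P u.2 v.2 s i.2.le
  have hv : ∀ v : Fin N, v * P.Per + P.Per ≤ N * P.Per := fun v => by
    have : (v + 1) * P.Per ≤ N * P.Per := Nat.mul_le_mul_right _ v.2
    rwa [add_mul, one_mul] at this
  refine ⟨by omega, ?_, ?_, ?_, ?_⟩
  · rintro (v | ⟨u, v, s, i, o⟩)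
    · have := hv v
      rw [hz]
      simp only [step, stepDat, Par.datV, ← hP]
      omega
    · have h1 := step_cell (m := m) (adj := adj) hS u v s i o
      have := hcell u v s i
      rw [← hP] at h1
      omega
  · rintro (v | ⟨u, v, s, i, o⟩)
    · have := hv v
      rw [hz]
      simp only [step, stepDat, Par.datV, ← hP]
      omega
    · have h1 := step_cell (m := m) (adj := adj) hS u v s i o
      have := hcell u v s i
      rw [← hP] at h1
      omega
  · rintro (v | ⟨u, v, s, i, o⟩)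
    · simp only [step, stepDat, Par.datV, ← hP]
      split_ifs <;> omega
    · have h1 := step_cell (m := m) (adj := adj) hS u v s i o
      have := P.four_W_le_off u v
      rw [← hP] at h1
      omega
  · rintro (v | ⟨u, v, s, i, o⟩)
    · have := hv v
      rw [hz]
      simp only [step, stepDat, Par.datV, ← hP]
      split_ifs <;> omega
    · have h1 := P.off_le_H (u := u) (v := v) u.2 v.2
      have h2 : 2 * (4 * P.off u v) ≤ (P.μ + 1) * (4 * P.off u v) :=
        Nat.mul_le_mul_right _ (by have : (i : ℕ) < P.μ := i.2; omega)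
      have h3 : 1 * P.H ≤ P.Wg := Nat.mul_le_mul_right _ (by have : (u : ℕ) < P.N := u.2; omega)
      have h4 := P.four_W_le_off u v
      have h5 := P.sc_mul_le hZ s (i := i) i.2
      rw [hz]
      cases o with
      | none =>
        simp only [step, stepDat, Par.datO, ← hP]
        cases (!s && adj u v) <;> simp only [cond_true, cond_false] <;> omega
      | some y =>
        have h6 : P.sc s i * S.l y ≤ P.sc s i * P.Z := Nat.mul_le_mul_left _ (hS.l_le y)
        simp only [step, stepDat, Par.datW, Sys.dat, ← hP]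
        omega

lemma clear_th (hS : S.WF) (u v : Fin N) (s : Bool) (i : Fin μ) :
    (step S N μ m adj).Clear ((⟨N, μ, S.Z⟩ : Par).th u v s i) := by
  set P : Par := ⟨N, μ, S.Z⟩ with hP
  have h0 := step_cell (m := m) (adj := adj) hS u v s i none
  rw [← hP] at h0
  rintro (w | ⟨u', v', s', i', o⟩) h
  · simp only [step, stepDat, Par.datV, ← hP] at h ⊢
    exact geo_vert P u.2 v.2 s (i := i) i.2.le (by omega) (by omega) h
  · have h1 := step_cell (m := m) (adj := adj) hS u' v' s' i' o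
    rw [← hP] at h1
    by_cases h2 : (u : ℕ) = u' ∧ (v : ℕ) = v' ∧ s = s' ∧ (i : ℕ) = i'
    · obtain ⟨e1, e2, e3, e4⟩ := h2
      rw [e1, e2, e3, e4]
      exact h1.2.2.2.1
    · rcases P.cel_disj u.2 v.2 u'.2 v'.2 i.2.le i'.2.le h2 with h3 | h3 <;> omega

lemma clear_virt (hS : S.WF) (u v : Fin N) (s : Bool) :
    (step S N μ m adj).Clear ((⟨N, μ, S.Z⟩ : Par).cel u v s μ) := by
  set P : Par := ⟨N, μ, S.Z⟩ with hP
  have hW := P.W_pos hS.Z_pos
  have hoff := P.four_W_le_off u v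
  rintro (w | ⟨u', v', s', i', o⟩) h
  · simp only [step, stepDat, Par.datV, ← hP] at h ⊢
    exact geo_vert P u.2 v.2 s (i := μ) le_rfl le_rfl (by omega) h
  · have h1 := step_cell (m := m) (adj := adj) hS u' v' s' i' o
    rw [← hP] at h1
    have h2 : ¬ ((u : ℕ) = u' ∧ (v : ℕ) = v' ∧ s = s' ∧ μ = i') := fun h2 => by
      have := i'.2
      omega
    rcases P.cel_disj u.2 v.2 u'.2 v'.2 (i := μ) le_rfl i'.2.le h2 with h3 | h3 <;> omega

lemma clear_end (hS : S.WF) : (step S N μ m adj).Clear (N * (⟨N, μ, S.Z⟩ : Par).Per) := by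
  set P : Par := ⟨N, μ, S.Z⟩ with hP
  have hPer : P.Per = 2 * P.Wg + 2 := rfl
  rintro (w | ⟨u', v', s', i', o⟩) _
  · have : (w + 1) * P.Per ≤ N * P.Per := Nat.mul_le_mul_right _ w.2
    rw [add_mul, one_mul] at this
    simp only [step, stepDat, Par.datV, ← hP]
    omega
  · have h1 := step_cell (m := m) (adj := adj) hS u' v' s' i' o
    rw [← hP] at h1
    have h2 : P.cel u' v' s' i' + 4 * P.off u' v' ≤ N * P.Per := geo_cel_le P u'.2 v'.2 s' i'.2.le
    omega

end Crest.Agent.R318
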