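import Crest.Agent.R318.Gen

/-! The graphs: disjoint copies, conflict graph of a formula, complete graph. -/

set_option autoImplicit false
open Finset

namespace Crest.Agent.R318

lemma No.copies {n m : ℕ} {adj : ℕ → ℕ → Bool} (h : No n m adj) (k : ℕ) :
    No ((k + 1) * n) ((k + 1) * m - k) (copies n adj) := by
  intro C hC hcard
  obtain _ | m := m
  · obtain ⟨u, hu, _⟩ := h ∅ (empty_subset _) le_rfl
    simp at hu
  have h1 : (range (k + 1)).card * m < C.card := by
    rw [card_range]
    have : (k + 1) * (m + 1) = (k + 1) * m + (k + 1) := by ring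
    omega
  have hn : 0 < n := by
    rcases Nat.eq_zero_or_pos n with rfl | hn
    · have : C = ∅ := by simpa using hC
      simp [this] at h1
    · exact hn
  obtain ⟨b, -, hb⟩ := exists_lt_card_fiber_of_mul_lt_card_of_maps_to (f := fun u => u / n)
    (t := range (k + 1)) (fun u hu => by
      rw [mem_range, Nat.div_lt_iff_lt_mul hn]; exact mem_range.1 (hC hu)) h1
  have hinj : Set.InjOn (fun u => u % n) (C.filter (fun u => u / n = b) : Set ℕ) := by
    intro u hu v hv e
    simp only [coe_filter, Set.mem_ofPred_eq] at hu hv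
    rw [← Nat.div_add_mod u n, ← Nat.div_add_mod v n, hu.2, hv.2]
    exact congrArg _ e
  obtain ⟨u', hu', v', hv', ha⟩ := h ((C.filter (fun u => u / n = b)).image (fun u => u % n))
    (fun x hx => by
      obtain ⟨u, -, rfl⟩ := mem_image.1 hx
      exact mem_range.2 (Nat.mod_lt _ hn))
    (by rw [card_image_of_injOn hinj]; exact hb)
  obtain ⟨u, hu, rfl⟩ := mem_image.1 hu'
  obtain ⟨v, hv, rfl⟩ := mem_image.1 hv'
  rw [mem_filter] at hu hv
  refine ⟨u, hu.1, v, hv.1, ?_⟩
  simp only [R318.copies, Bool.and_eq_true, decide_eq_true_eq]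
  exact ⟨hu.2.trans hv.2.symm, ha⟩

lemma graph_gad_mod (u v n : ℕ) (s : Bool) : gad u v s % n = gad (u % n) (v % n) s := by
  cases s <;> rfl

lemma Yes.copies {T n m : ℕ} {adj : ℕ → ℕ → Bool} (h : Yes T n m adj) (K : ℕ) :
    Yes T (K * n) (K * m) (copies n adj) := by
  obtain ⟨V, side, hV, hs⟩ := h
  refine ⟨fun j => (range K ×ˢ V j).image (fun p => p.1 * n + p.2),
    fun j u v => side j (u % n) (v % n), fun j => ⟨?_, ?_⟩, ?_⟩
  · intro x hx
    obtain ⟨⟨a, b⟩, hp, rfl⟩ := mem_image.1 hx
    rw [mem_product] at hp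
    have h1 := mem_range.1 hp.1
    have h2 := mem_range.1 ((hV j).1 hp.2)
    rw [mem_range]
    calc a * n + b < a * n + n := by simpa using h2
      _ = (a + 1) * n := by ring
      _ ≤ K * n := Nat.mul_le_mul_right _ h1
  · rw [card_image_of_injOn, card_product, card_range, (hV j).2]
    rintro ⟨a, b⟩ hp ⟨a', b'⟩ hp' e
    simp only [coe_product, Set.mem_prod, mem_coe] at hp hp' e
    have h2 := mem_range.1 ((hV j).1 hp.2)
    have h2' := mem_range.1 ((hV j).1 hp'.2)
    have e1 : b = b' := by
      have := congrArg (· % n) e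
      simpa [Nat.mul_add_mod_of_lt h2, Nat.mul_add_mod_of_lt h2'] using this
    subst e1
    have : a = a' := Nat.eq_of_mul_eq_mul_right (by omega : 0 < n) (by omega)
    rw [this]
  · intro u v s ha
    simp only [R318.copies, Bool.and_eq_true, decide_eq_true_eq] at ha
    refine le_trans (Nat.add_le_add_right (cnt_mono fun j hj => ?_) _) (hs _ _ s ha.2)
    obtain ⟨⟨a, b⟩, hp, e⟩ := mem_image.1 hj
    rw [mem_product] at hp
    have h2 := mem_range.1 ((hV j).1 hp.2)
    rw [← graph_gad_mod, ← e, Nat.mul_add_mod_of_lt h2]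
    exact hp.2

lemma graph_lit_mem {F : List (List (ℕ × Bool))} (hF : ∀ c ∈ F, c ≠ [] ∧ c.length ≤ 3) {u : ℕ}
    (hu : u / 3 < F.length) : lit F u ∈ F[u / 3] := by
  have h1 := (hF _ (List.getElem_mem hu)).1
  have h2 : u % 3 % (F[u / 3]).length < (F[u / 3]).length :=
    Nat.mod_lt _ (List.length_pos_iff.2 h1)
  unfold lit
  rw [List.getD_eq_getElem _ _ hu, List.getD_eq_getElem _ _ h2]
  exact List.getElem_mem h2

lemma yes_sat {F : List (List (ℕ × Bool))} (hF : ∀ c ∈ F, c ≠ [] ∧ c.length ≤ 3)
    (h : ∃ σ : ℕ → Bool, ∀ c ∈ F, ∃ l ∈ c, σ l.1 = l.2) :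
    Yes 1 (3 * F.length) F.length (satAdj F) := by
  classical
  obtain ⟨σ, hσ⟩ := h
  have key : ∀ k, ∃ u, u / 3 = k ∧ (k < F.length → σ (lit F u).1 = (lit F u).2) := by
    intro k
    by_cases hk : k < F.length
    · obtain ⟨l, hl, e⟩ := hσ _ (List.getElem_mem hk)
      obtain ⟨i, hi, rfl⟩ := List.getElem_of_mem hl
      have h3 := (hF _ (List.getElem_mem hk)).2
      have a1 : (3 * k + i) / 3 = k := by omega
      have a2 : (3 * k + i) % 3 = i := by omega
      refine ⟨3 * k + i, a1, fun _ => ?_⟩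
      have : lit F (3 * k + i) = F[k][i] := by
        unfold lit
        rw [a1, a2, List.getD_eq_getElem _ _ hk, Nat.mod_eq_of_lt hi, List.getD_eq_getElem _ _ hi]
      rw [this]; exact e
    · exact ⟨3 * k, by omega, fun h => absurd h hk⟩
  choose g hg1 hg2 using key
  have hginj : Function.Injective g := fun a b e => by rw [← hg1 a, ← hg1 b, e]
  refine ⟨fun _ => (range F.length).image g,
    fun _ u _ => decide (u ∈ (range F.length).image g), fun _ => ⟨?_, ?_⟩, ?_⟩
  · intro x hx
    obtain ⟨k, hk, rfl⟩ := mem_image.1 hx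
    have := hg1 k
    rw [mem_range] at hk ⊢
    omega
  · rw [card_image_of_injective _ hginj, card_range]
  · intro u v s ha
    have hind : ¬ (u ∈ (range F.length).image g ∧ v ∈ (range F.length).image g) := by
      rintro ⟨hu, hv⟩
      obtain ⟨a, ha', rfl⟩ := mem_image.1 hu
      obtain ⟨b, hb', rfl⟩ := mem_image.1 hv
      have e1 := hg2 a (mem_range.1 ha')
      have e2 := hg2 b (mem_range.1 hb')
      simp only [satAdj, Bool.and_eq_true, Bool.not_eq_true', decide_eq_false_iff_not,
        Bool.or_eq_true, decide_eq_true_eq, hg1] at ha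
      rcases ha.2 with e | ⟨e, e'⟩
      · exact ha.1 (by rw [e])
      · exact e' (by rw [← e1, ← e2, e])
    have hz : cnt (fun _ : Fin 1 => gad u v s ∈ (range F.length).image g) = 0 ∨
        cnt (fun _ : Fin 1 => decide (u ∈ (range F.length).image g) = s) = 0 := by
      rw [cnt_eq_zero, cnt_eq_zero]
      by_cases hu : u ∈ (range F.length).image g
      · cases s
        · exact Or.inr fun _ => by simp only [hu]; simp
        · exact Or.inl fun _ hv => hind ⟨hu, hv⟩
      · cases s
        · exact Or.inl fun _ => hu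
        · exact Or.inr fun _ => by simp only [hu]; simp
    have b1 := cnt_le_card (fun _ : Fin 1 => gad u v s ∈ (range F.length).image g)
    have b2 := cnt_le_card (fun _ : Fin 1 => decide (u ∈ (range F.length).image g) = s)
    rw [Fintype.card_fin] at b1 b2
    beta_reduce
    omega

lemma no_sat {F : List (List (ℕ × Bool))} (hF : ∀ c ∈ F, c ≠ [] ∧ c.length ≤ 3)
    (h : ¬ ∃ σ : ℕ → Bool, ∀ c ∈ F, ∃ l ∈ c, σ l.1 = l.2) :
    No (3 * F.length) F.length (satAdj F) := by
  classical
  intro C hC hcard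
  by_contra hne
  push Not at hne
  have hind : ∀ u ∈ C, ∀ v ∈ C, u ≠ v → u / 3 ≠ v / 3 ∧
      ((lit F u).1 = (lit F v).1 → (lit F u).2 = (lit F v).2) := by
    intro u hu v hv huv
    have := hne u hu v hv
    simp only [satAdj, ne_eq, Bool.and_eq_true, Bool.not_eq_true', decide_eq_false_iff_not,
      Bool.or_eq_true, decide_eq_true_eq, not_and, not_or, not_not] at this
    exact this huv
  have hinj : Set.InjOn (fun u => u / 3) (C : Set ℕ) := fun u hu v hv e => by
    by_contra huv
    exact (hind u hu v hv huv).1 e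
  have himg : C.image (fun u => u / 3) = range F.length := by
    apply eq_of_subset_of_card_le
    · intro x hx
      obtain ⟨u, hu, rfl⟩ := mem_image.1 hx
      have := mem_range.1 (hC hu)
      rw [mem_range]; omega
    · rw [card_image_of_injOn hinj, card_range]; exact hcard
  refine h ⟨fun i => decide (∃ u ∈ C, lit F u = (i, true)), fun c hc => ?_⟩
  obtain ⟨k, hk, rfl⟩ := List.getElem_of_mem hc
  have : k ∈ C.image (fun u => u / 3) := by rw [himg]; exact mem_range.2 hk
  obtain ⟨u, hu, rfl⟩ := mem_image.1 this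
  refine ⟨lit F u, graph_lit_mem hF hk, ?_⟩
  cases hb : (lit F u).2
  · rw [decide_eq_false_iff_not]
    rintro ⟨v, hv, e⟩
    by_cases huv : u = v
    · subst huv
      rw [e] at hb; simp at hb
    · have := (hind u hu v hv huv).2 (by rw [e])
      rw [e, hb] at this; simp at this
  · rw [decide_eq_true_eq]
    exact ⟨u, hu, Prod.ext rfl hb⟩

lemma yes_full : Yes 2 4 2 fullAdj := by
  refine ⟨![{0, 1}, {2, 3}], fun j _ _ => decide (j = 1), fun j => ?_, fun u v s _ => ?_⟩
  · fin_cases j <;> decide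
  · have a1 : cnt (fun j : Fin 2 => gad u v s ∈ (![{0, 1}, {2, 3}] : Fin 2 → Finset ℕ) j) ≤ 1 := by
      rw [cnt_eq]
      refine card_le_one.2 fun a ha b hb => ?_
      simp only [mem_filter, mem_univ, true_and] at ha hb
      fin_cases a <;> fin_cases b <;> simp at ha hb ⊢ <;> omega
    have a2 : cnt (fun j : Fin 2 => decide (j = 1) = s) ≤ 1 := by
      rw [cnt_eq]
      cases s <;> decide
    exact Nat.add_le_add a1 a2

lemma no_full : No 4 2 fullAdj := by
  intro C _ hcard
  obtain ⟨u, hu, v, hv, huv⟩ := one_lt_card.1 (by omega : 1 < C.card)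
  exact ⟨u, hu, v, hv, by simp [fullAdj, huv]⟩

end Crest.Agent.R318
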