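import Crest.Agent.R318.Gen

/-! The configuration programs of an instance with a `T`-fold packing. -/

set_option autoImplicit false
open Finset Crest.BinPacking

namespace Crest.Agent.R318

lemma LP_card_big_le {κ : Type} [DecidableEq κ] (a : κ → ℚ) (ha : ∀ i, 0 ≤ a i) (big : Finset κ)
    (hhalf : ∀ i, i ∈ big → 1 / 2 < a i) (G : Finset κ) (hG : ∑ i ∈ G, a i ≤ 1) :
    (big.filter (fun i => i ∈ G)).card ≤ 1 := by
  rw [Finset.card_le_one]
  intro x hx y hy
  by_contra hne
  simp only [mem_filter] at hx hy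
  have h1 : ∑ i ∈ ({x, y} : Finset κ), a i ≤ ∑ i ∈ G, a i :=
    Finset.sum_le_sum_of_subset_of_nonneg (by
      intro z hz
      simp only [mem_insert, mem_singleton] at hz
      rcases hz with rfl | rfl
      · exact hx.2
      · exact hy.2) (fun i _ _ => ha i)
  rw [Finset.sum_pair hne] at h1
  have := hhalf x hx.1
  have := hhalf y hy.1
  linarith

lemma LP_copy_lower {κ : Type} [Fintype κ] [DecidableEq κ] (a : κ → ℚ) (ha : ∀ i, 0 ≤ a i)
    (big : Finset κ) (hhalf : ∀ i, i ∈ big → 1 / 2 < a i) (y : Finset κ → ℝ)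
    (hy : CopyLPFeasible a y) : (big.card : ℝ) ≤ copyLPCost y := by
  obtain ⟨h0, h1, h2⟩ := hy
  unfold copyLPCost
  calc (big.card : ℝ) = ∑ _i ∈ big, (1 : ℝ) := by simp
    _ ≤ ∑ i ∈ big, ∑ G ∈ univ.filter (fun G => i ∈ G), y G := sum_le_sum fun i _ => h2 i
    _ = ∑ i ∈ big, ∑ G, if i ∈ G then y G else 0 := by
        refine sum_congr rfl fun i _ => ?_
        rw [sum_filter]
    _ = ∑ G, ∑ i ∈ big, if i ∈ G then y G else 0 := sum_comm
    _ ≤ ∑ G, y G := by
        refine sum_le_sum fun G _ => ?_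
        rw [← sum_filter, sum_const, nsmul_eq_mul]
        by_cases hG : y G = 0
        · simp [hG]
        · have := LP_card_big_le a ha big hhalf G (h1 G hG)
          have h3 : ((big.filter (fun i => i ∈ G)).card : ℝ) ≤ 1 := by exact_mod_cast this
          nlinarith [h0 G]

lemma LP_copy_upper {κ β : Type} [Fintype κ] [DecidableEq κ] [Fintype β] (a : κ → ℚ) (B T : ℕ)
    (hT : 0 < T) (H : β → Finset κ) (hβ : Fintype.card β = T * B)
    (hH : ∀ b, ∑ i ∈ H b, a i ≤ 1) (hcov : ∀ i, T ≤ cnt (fun b => i ∈ H b)) :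
    ∃ y : Finset κ → ℝ, CopyLPFeasible a y ∧ copyLPCost y = B := by
  classical
  have hT' : (0 : ℝ) < T := by exact_mod_cast hT
  refine ⟨fun G => ∑ b, if H b = G then (1 / T : ℝ) else 0, ⟨fun G => ?_, fun G hG => ?_,
    fun i => ?_⟩, ?_⟩
  · exact sum_nonneg fun b _ => by split_ifs <;> positivity
  · obtain ⟨b, -, hb⟩ := exists_ne_zero_of_sum_ne_zero hG
    have : H b = G := by
      by_contra h
      exact hb (if_neg h)
    exact this ▸ hH b
  · rw [sum_comm]
    have h1 : ∀ b, (∑ G ∈ univ.filter (fun G => i ∈ G), if H b = G then (1 / T : ℝ) else 0)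
        = if i ∈ H b then (1 / T : ℝ) else 0 := by
      intro b
      rw [sum_ite_eq]
      simp
    simp_rw [h1]
    rw [← sum_filter, sum_const, nsmul_eq_mul, ← cnt_eq]
    have h2 : (T : ℝ) ≤ cnt (fun b => i ∈ H b) := by exact_mod_cast hcov i
    rw [mul_one_div, le_div_iff₀ hT']
    linarith
  · unfold copyLPCost
    rw [sum_comm]
    simp only [sum_ite_eq, mem_univ, if_true, sum_const, card_univ, hβ, nsmul_eq_mul]
    push_cast
    field_simp

lemma LP_sum_single {β α : Type} [Fintype β] (cfg : β → α) (w : ℝ) (g : α → ℝ) :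
    (∑ b, Finsupp.single (cfg b) w).sum (fun c v => g c * v) = ∑ b, g (cfg b) * w := by
  rw [← Finsupp.sum_finsetSum_index (h := fun c v => g c * v) (fun _ => by simp)
    (fun _ _ _ => mul_add _ _ _)]
  refine sum_congr rfl fun b _ => ?_
  rw [Finsupp.sum_single_index (by simp)]

lemma LP_type_upper {ι β : Type} [Fintype ι] [Fintype β] {m : ℕ} (σ : Fin m → ℚ)
    (τ : ι → Fin m) (mult : Fin m → ℕ) (hmult : ∀ j, mult j = cnt (fun i => τ i = j)) (B T : ℕ)
    (hT : 0 < T) (H : β → Finset ι) (hβ : Fintype.card β = T * B)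
    (hH : ∀ b, ∑ i ∈ H b, σ (τ i) ≤ 1) (hcov : ∀ i, T ≤ cnt (fun b => i ∈ H b)) :
    ∃ z, TypeLPFeasible σ mult z ∧ typeLPCost z = B := by
  classical
  have hT' : (0 : ℝ) < T := by exact_mod_cast hT
  set cfg : β → Fin m → ℕ := fun b j => ((H b).filter (fun i => τ i = j)).card with hcfg
  refine ⟨∑ b, Finsupp.single (cfg b) (1 / T : ℝ), ⟨fun c => ?_, fun c hc => ?_, fun j => ?_⟩, ?_⟩
  · rw [Finsupp.finsetSum_apply]
    refine sum_nonneg fun b _ => ?_
    rw [Finsupp.single_apply]
    split_ifs <;> positivity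
  · rw [Finsupp.mem_support_iff, Finsupp.finsetSum_apply] at hc
    obtain ⟨b, -, hb⟩ := exists_ne_zero_of_sum_ne_zero hc
    have : cfg b = c := by
      by_contra h
      exact hb (by rw [Finsupp.single_apply, if_neg h])
    subst this
    refine le_trans (le_of_eq ?_) (hH b)
    rw [← sum_fiberwise (H b) τ]
    refine sum_congr rfl fun j _ => ?_
    rw [sum_congr rfl (g := fun _ => σ j) (fun i hi => by rw [(mem_filter.1 hi).2])]
    rw [sum_const, nsmul_eq_mul, mul_comm]
  · rw [LP_sum_single cfg (1 / T) (fun c => (c j : ℝ)), ← sum_mul, mul_one_div, le_div_iff₀ hT']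
    have h1 : mult j * T ≤ ∑ b, cfg b j := by
      calc mult j * T = ∑ _i ∈ univ.filter (fun i => τ i = j), T := by
            rw [sum_const, smul_eq_mul, hmult, cnt_eq]
        _ ≤ ∑ i ∈ univ.filter (fun i => τ i = j), ∑ b, if i ∈ H b then 1 else 0 := by
            refine sum_le_sum fun i _ => ?_
            refine (hcov i).trans (le_of_eq ?_)
            rw [cnt_eq, card_filter]
        _ = ∑ b, ∑ i ∈ univ.filter (fun i => τ i = j), if i ∈ H b then 1 else 0 := sum_comm
        _ = ∑ b, cfg b j := by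
            refine sum_congr rfl fun b _ => ?_
            rw [← card_filter, hcfg]
            congr 1
            ext i
            simp [and_comm]
    exact_mod_cast h1
  · unfold typeLPCost
    have := LP_sum_single cfg (1 / T) (fun _ => (1 : ℝ))
    simp only [one_mul] at this
    rw [this]
    simp only [sum_const, card_univ, hβ, nsmul_eq_mul]
    push_cast
    field_simp

lemma LP_type_lower {m : ℕ} (σ : Fin m → ℚ) (hσ : ∀ j, 0 ≤ σ j) (mult : Fin m → ℕ)
    (z : (Fin m → ℕ) →₀ ℝ) (hz : TypeLPFeasible σ mult z) :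
    ((∑ j ∈ univ.filter (fun j => 1 / 2 < σ j), mult j : ℕ) : ℝ) ≤ typeLPCost z := by
  obtain ⟨h0, h1, h2⟩ := hz
  unfold typeLPCost
  push_cast
  refine (sum_le_sum fun j _ => h2 j).trans ?_
  unfold Finsupp.sum
  rw [sum_comm]
  refine sum_le_sum fun c hc => ?_
  rw [← sum_mul]
  have h3 : ∑ j ∈ univ.filter (fun j => 1 / 2 < σ j), c j ≤ 1 := by
    by_contra hlt
    push Not at hlt
    have h4 : ∃ j ∈ univ.filter (fun j => 1 / 2 < σ j), c j ≠ 0 :=
      exists_ne_zero_of_sum_ne_zero (by omega)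
    obtain ⟨j0, hj0, hc0⟩ := h4
    have h5 : ∑ j ∈ univ.filter (fun j => 1 / 2 < σ j), (1 / 2 : ℚ) * (c j : ℚ)
        < ∑ j ∈ univ.filter (fun j => 1 / 2 < σ j), σ j * (c j : ℚ) := by
      refine sum_lt_sum (fun j hj => ?_) ⟨j0, hj0, ?_⟩
      · exact mul_le_mul_of_nonneg_right (mem_filter.1 hj).2.le (by positivity)
      · exact mul_lt_mul_of_pos_right (mem_filter.1 hj0).2
          (by exact_mod_cast Nat.pos_of_ne_zero hc0)
    have h6 : ∑ j ∈ univ.filter (fun j => 1 / 2 < σ j), σ j * (c j : ℚ) ≤ ∑ j, σ j * (c j : ℚ) :=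
      sum_le_sum_of_subset_of_nonneg (filter_subset _ _)
        (fun j _ _ => mul_nonneg (hσ j) (by positivity))
    rw [← mul_sum] at h5
    have h7 : (2 : ℚ) ≤ ∑ j ∈ univ.filter (fun j => 1 / 2 < σ j), (c j : ℚ) := by
      exact_mod_cast hlt
    have := h1 c hc
    linarith
  have h4 : ∑ j ∈ univ.filter (fun j => 1 / 2 < σ j), (c j : ℝ) ≤ 1 := by exact_mod_cast h3
  nlinarith [h0 c]

/-- If `B` items exceed one half and `T * B` patterns cover every item `T` times, both
configuration programs have value `B`. -/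
theorem lp_gap {ι β : Type} [Fintype ι] [Fintype β] (a : ι → ℚ) (B c T : ℕ) (hT : 0 < T)
    (ha : ∀ i, 1 / 6 < a i ∧ a i ≤ 1) (big : Finset ι) (hbig : big.card = B)
    (hhalf : ∀ i, i ∈ big ↔ 1 / 2 < a i) (H : β → Finset ι) (hβ : Fintype.card β = T * B)
    (hH : ∀ b, ∑ i ∈ H b, a i ≤ 1) (hcov : ∀ i, T ≤ cnt (fun b => i ∈ H b))
    (hno : ¬ PacksInto a (B + c)) :
    ∃ (m : ℕ) (σ : Fin m → ℚ) (mult : Fin m → ℕ) (B : ℕ),
      Function.Injective σ ∧ (∀ j, 0 < mult j) ∧ (∀ j, 1 / 6 < σ j ∧ σ j ≤ 1) ∧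
      (∃ z, TypeLPFeasible σ mult z ∧ typeLPCost z = B) ∧
      (∀ z, TypeLPFeasible σ mult z → (B : ℝ) ≤ typeLPCost z) ∧
      (∃ y : Finset ((j : Fin m) × Fin (mult j)) → ℝ,
        CopyLPFeasible (fun i => σ i.1) y ∧ copyLPCost y = B) ∧
      (∀ y : Finset ((j : Fin m) × Fin (mult j)) → ℝ,
        CopyLPFeasible (fun i => σ i.1) y → (B : ℝ) ≤ copyLPCost y) ∧
      ¬ PacksInto (fun i : (j : Fin m) × Fin (mult j) => σ i.1) (B + c) := by
  classical
  set I : Finset ℚ := univ.image a with hI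
  let τ : ι → Fin I.card := fun i => I.equivFin ⟨a i, mem_image_of_mem a (mem_univ i)⟩
  let σ : Fin I.card → ℚ := fun j => (I.equivFin.symm j : ℚ)
  have hστ : ∀ i, σ (τ i) = a i := fun i => by simp [σ, τ]
  have hσinj : Function.Injective σ := fun j j' h =>
    I.equivFin.symm.injective (Subtype.ext h)
  have hτ : ∀ j, ∃ i, τ i = j := by
    intro j
    obtain ⟨i, -, hi⟩ := mem_image.1 (I.equivFin.symm j).2
    exact ⟨i, hσinj (by rw [hστ]; exact hi)⟩
  let mult : Fin I.card → ℕ := fun j => Fintype.card {i // τ i = j}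
  have hmult : ∀ j, mult j = cnt (fun i => τ i = j) := fun j => by
    rw [cnt_eq]; exact Fintype.card_subtype _
  let e : ((j : Fin I.card) × Fin (mult j)) ≃ ι :=
    (Equiv.sigmaCongrRight fun j => (Fintype.equivFin {i // τ i = j}).symm).trans
      (Equiv.sigmaFiberEquiv τ)
  have he : ∀ x, τ (e x) = x.1 := fun x =>
    ((Fintype.equivFin {i // τ i = x.1}).symm x.2).2
  have hea : ∀ x, σ x.1 = a (e x) := fun x => by rw [← he, hστ]
  have hσ : ∀ j, 1 / 6 < σ j ∧ σ j ≤ 1 := fun j => by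
    obtain ⟨i, rfl⟩ := hτ j
    rw [hστ]; exact ha i
  have hσ0 : ∀ j, 0 ≤ σ j := fun j => by linarith [(hσ j).1]
  refine ⟨I.card, σ, mult, B, hσinj, fun j => ?_, hσ, ?_, fun z hz => ?_, ?_, fun y hy => ?_, ?_⟩
  · rw [hmult, cnt_pos]; exact hτ j
  · exact LP_type_upper σ τ mult hmult B T hT H hβ (fun b => by simpa only [hστ] using hH b) hcov
  · refine le_trans (le_of_eq ?_) (LP_type_lower σ hσ0 mult z hz)
    congr 1
    rw [← hbig, card_eq_sum_card_fiberwise (f := τ) (s := big)
      (t := univ.filter (fun j => 1 / 2 < σ j))]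
    · refine sum_congr rfl fun j hj => ?_
      rw [hmult, cnt_eq]
      congr 1
      ext i
      simp only [mem_filter, mem_univ, true_and, and_iff_right_iff_imp]
      rintro rfl
      rw [hhalf, ← hστ]
      exact (mem_filter.1 hj).2
    · intro i hi
      simp only [coe_filter, mem_univ, true_and, Set.mem_ofPred_eq]
      rw [hστ]
      exact (hhalf i).1 hi
  · refine LP_copy_upper _ B T hT (fun b => (H b).map e.symm.toEmbedding) hβ (fun b => ?_)
      (fun x => ?_)
    · rw [sum_map]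
      refine le_trans (le_of_eq ?_) (hH b)
      refine sum_congr rfl fun i _ => ?_
      rw [hea]; simp
    · refine (hcov (e x)).trans (le_of_eq (cnt_congr fun b => ?_))
      simp [Finset.mem_map_equiv]
  · have := LP_copy_lower (fun i : (j : Fin I.card) × Fin (mult j) => σ i.1) (fun i => hσ0 _)
      (big.map e.symm.toEmbedding) (fun x hx => by
        rw [Finset.mem_map_equiv] at hx
        rw [hea]
        exact (hhalf _).1 (by simpa using hx)) y hy
    rwa [card_map, hbig] at this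
  · rintro ⟨g, hg⟩
    refine hno ⟨fun i => g (e.symm i), fun b => le_trans (le_of_eq ?_) (hg b)⟩
    symm
    refine Finset.sum_equiv e (fun x => by simp) (fun x _ => hea x)

end Crest.Agent.R318
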