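import Crest.Agent.R318.Gen

/-! From systems to bin packing. -/

set_option autoImplicit false
open Finset Crest.BinPacking

namespace Crest.Agent.R318

variable {W : Type} [Fintype W] {M : ℕ} {t : W → ℕ × ℕ × ℕ}

lemma Pack_frac (hM : 0 < M) {n : ℕ} (hn : n ≤ M) :
    0 ≤ (n : ℚ) / (100 * M) ∧ (n : ℚ) / (100 * M) ≤ 1 / 100 := by
  have hM' : (0 : ℚ) < M := by exact_mod_cast hM
  have hn' : (n : ℚ) ≤ M := by exact_mod_cast hn
  refine ⟨by positivity, ?_⟩
  rw [div_le_iff₀ (by positivity)]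
  linarith

omit [Fintype W] in
lemma Pack_sz0 (x : W) : sizeOf3 M t (x, 0) = 11 / 20 + ((t x).1 : ℚ) / (100 * M) := rfl

omit [Fintype W] in
lemma Pack_sz1 (x : W) : sizeOf3 M t (x, 1) = 1 / 5 + ((t x).2.2 : ℚ) / (100 * M) := rfl

omit [Fintype W] in
lemma Pack_sz2 (x : W) : sizeOf3 M t (x, 2) = 1 / 4 - ((t x).2.1 : ℚ) / (100 * M) := rfl

omit [Fintype W] in
lemma Pack_src (hM : 0 < M) (ht : Bdd M t) (x : W) :
    11 / 20 ≤ sizeOf3 M t (x, 0) ∧ sizeOf3 M t (x, 0) ≤ 14 / 25 := by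
  have := Pack_frac hM (ht x).1
  rw [Pack_sz0]; constructor <;> linarith [this.1, this.2]

omit [Fintype W] in
lemma Pack_lab (hM : 0 < M) (ht : Bdd M t) (x : W) :
    1 / 5 ≤ sizeOf3 M t (x, 1) ∧ sizeOf3 M t (x, 1) ≤ 21 / 100 := by
  have := Pack_frac hM (ht x).2.2
  rw [Pack_sz1]; constructor <;> linarith [this.1, this.2]

omit [Fintype W] in
lemma Pack_snk (hM : 0 < M) (ht : Bdd M t) (x : W) :
    6 / 25 ≤ sizeOf3 M t (x, 2) ∧ sizeOf3 M t (x, 2) ≤ 1 / 4 := by
  have := Pack_frac hM (ht x).2.1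
  rw [Pack_sz2]; constructor <;> linarith [this.1, this.2]

lemma Pack_three (k : Fin 3) : k = 0 ∨ k = 1 ∨ k = 2 := by
  fin_cases k <;> simp

lemma sizeOf3_mem (hM : 0 < M) (ht : Bdd M t) (x : W × Fin 3) :
    1 / 6 < sizeOf3 M t x ∧ sizeOf3 M t x ≤ 1 := by
  obtain ⟨w, k⟩ := x
  have h0 := Pack_src hM ht w
  have h1 := Pack_lab hM ht w
  have h2 := Pack_snk hM ht w
  rcases Pack_three k with rfl | rfl | rfl <;> constructor <;> linarith [h0.1, h0.2, h1.1, h1.2,
    h2.1, h2.2]

lemma half_lt_iff (hM : 0 < M) (ht : Bdd M t) (x : W × Fin 3) :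
    1 / 2 < sizeOf3 M t x ↔ x.2 = 0 := by
  obtain ⟨w, k⟩ := x
  have h0 := Pack_src hM ht w
  have h1 := Pack_lab hM ht w
  have h2 := Pack_snk hM ht w
  rcases Pack_three k with rfl | rfl | rfl
  · exact iff_of_true (by linarith [h0.1]) rfl
  · exact iff_of_false (by linarith [h1.2]) (by simp)
  · exact iff_of_false (by linarith [h2.2]) (by simp)

/-- A source, a label and a sink fit together exactly when the arrow ends left of the sink. -/
lemma fits_iff (hM : 0 < M) (x a y : W) :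
    sizeOf3 M t (x, 0) + sizeOf3 M t (a, 1) + sizeOf3 M t (y, 2) ≤ 1 ↔
      (t x).1 + (t a).2.2 ≤ (t y).2.1 := by
  have hM' : (0 : ℚ) < 100 * M := by
    have : (0 : ℚ) < M := by exact_mod_cast hM
    positivity
  rw [Pack_sz0, Pack_sz1, Pack_sz2, ← Nat.cast_le (α := ℚ),
    ← div_le_div_iff_of_pos_right (a := (((t x).1 + (t a).2.2 : ℕ) : ℚ)) hM']
  push_cast
  rw [add_div]
  constructor <;> intro h <;> linarith

lemma Pack_bin (hM : 0 < M) (ht : Bdd M t) {N : ℕ} {g : W × Fin 3 → Fin N}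
    (hg : ∀ b : Fin N, ∑ i ∈ Finset.univ.filter (fun i => g i = b), sizeOf3 M t i ≤ 1)
    (b : Fin N) (S : Finset (W × Fin 3)) (hS : ∀ i ∈ S, g i = b) :
    ∑ i ∈ S, sizeOf3 M t i ≤ 1 :=
  le_trans (sum_le_sum_of_subset_of_nonneg (fun i hi => by simpa using hS i hi)
    fun i _ _ => by linarith [(sizeOf3_mem hM ht i).1]) (hg b)

lemma Pack_bin2 (hM : 0 < M) (ht : Bdd M t) {N : ℕ} {g : W × Fin 3 → Fin N}
    (hg : ∀ b : Fin N, ∑ i ∈ Finset.univ.filter (fun i => g i = b), sizeOf3 M t i ≤ 1)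
    (b : Fin N) (E : Finset (W × Fin 3)) (k : Fin 3) (hE : ∀ i ∈ E, g i = b ∧ i.2 ≠ k)
    (lo : ℚ) (hlo : ∀ a, lo ≤ sizeOf3 M t (a, k)) :
    ∑ i ∈ E, sizeOf3 M t i + (cnt (fun a => g (a, k) = b) : ℚ) * lo ≤ 1 := by
  classical
  set T := univ.filter (fun a => g (a, k) = b) with hT
  let emb : W ↪ W × Fin 3 := ⟨fun a => (a, k), fun a a' h => (Prod.ext_iff.1 h).1⟩
  have hd : Disjoint E (T.map emb) := by
    rw [Finset.disjoint_left]
    intro i hi hi'
    obtain ⟨a, -, rfl⟩ := mem_map.1 hi'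
    exact (hE _ hi).2 rfl
  have h1 := Pack_bin hM ht hg b (E ∪ T.map emb) (fun i hi => by
    rcases mem_union.1 hi with hi | hi
    · exact (hE i hi).1
    · obtain ⟨a, ha, rfl⟩ := mem_map.1 hi
      exact (mem_filter.1 ha).2)
  rw [sum_union hd, sum_map] at h1
  have h2 : (T.card : ℚ) * lo ≤ ∑ a ∈ T, sizeOf3 M t (emb a) := by
    rw [← nsmul_eq_mul]
    exact card_nsmul_le_sum _ _ _ fun a _ => hlo a
  rw [cnt_eq]
  linarith

/-- In a packing with `c` spare bins all but `15 c` sources share their bin with a label and a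
sink. -/
lemma triples_of_packs (hM : 0 < M) (ht : Bdd M t) {c : ℕ}
    (h : PacksInto (sizeOf3 M t) (Fintype.card W + c)) :
    ∃ lab snk : W → Option W, PInj lab ∧ PInj snk ∧ (∀ x, lab x = none ↔ snk x = none) ∧
      cnt (fun x => lab x = none) ≤ 15 * c ∧
      ∀ x a y, lab x = some a → snk x = some y → (t x).1 + (t a).2.2 ≤ (t y).2.1 := by
  classical
  obtain ⟨g, hg⟩ := h
  have hinj : ∀ x x', g (x, 0) = g (x', 0) → x = x' := by
    intro x x' hxx
    by_contra hne
    have h1 := Pack_bin hM ht hg (g (x', 0)) {(x, 0), (x', 0)} (by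
      intro i hi
      simp only [mem_insert, mem_singleton] at hi
      rcases hi with rfl | rfl
      · exact hxx
      · rfl)
    rw [sum_pair (by simpa using hne)] at h1
    linarith [(Pack_src hM ht x).1, (Pack_src hM ht x').1]
  let free : Fin (Fintype.card W + c) → Prop := fun b => ¬ ∃ x, g (x, 0) = b
  let hasS : W → Prop := fun x => ∃ y, g (y, 2) = g (x, 0)
  let hasL : W → Prop := fun x => ∃ a, g (a, 1) = g (x, 0)
  have hfree : cnt free ≤ c := by
    have h1 := cnt_add_not (fun b : Fin (Fintype.card W + c) => ∃ x, g (x, 0) = b)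
    have h2 : cnt (fun _ : W => True) ≤
        cnt (fun b : Fin (Fintype.card W + c) => ∃ x, g (x, 0) = b) :=
      cnt_le_of_inj (fun x => g (x, 0)) (fun x _ => ⟨x, rfl⟩) (fun x x' _ _ h => hinj x x' h)
    rw [cnt_true] at h2
    rw [Fintype.card_fin] at h1
    change _ + cnt free = _ at h1
    omega
  have h5 : ∀ k : Fin 3, (∀ a, 1 / 5 ≤ sizeOf3 M t (a, k)) →
      cnt (fun a => free (g (a, k))) ≤ 5 * c := by
    intro k hk
    refine (cnt_le_mul (Q := free) (fun a b => g (a, k) = b) 5 (fun a ha => ⟨_, ha, rfl⟩)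
      (fun b _ => ?_)).trans (by omega)
    have h1 := Pack_bin2 hM ht hg b ∅ k (by simp) (1 / 5) hk
    rw [sum_empty] at h1
    have h2 : (cnt (fun a => g (a, k) = b) : ℚ) ≤ 5 := by linarith
    exact_mod_cast h2
  have hS : cnt (fun x => ¬ hasS x) ≤ 5 * c := by
    have h1 := h5 2 (fun a => by linarith [(Pack_snk hM ht a).1])
    have h2 := cnt_add_not (fun a => free (g (a, 2)))
    have h3 := cnt_add_not hasS
    have h4 : cnt (fun a => ¬ free (g (a, 2))) ≤ cnt hasS * 1 := by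
      refine cnt_le_mul (fun a x => g (a, 2) = g (x, 0)) 1 (fun a ha => ?_) (fun x _ => ?_)
      · obtain ⟨x, hx⟩ := not_not.1 ha
        exact ⟨x, ⟨a, hx.symm⟩, hx.symm⟩
      · have h1 := Pack_bin2 hM ht hg (g (x, 0)) {(x, 0)} 2 (by simp) (6 / 25)
          (fun a => (Pack_snk hM ht a).1)
        rw [sum_singleton] at h1
        have h2 : (cnt (fun a => g (a, 2) = g (x, 0)) : ℚ) < 2 := by
          linarith [(Pack_src hM ht x).1]
        have h3 : cnt (fun a => g (a, 2) = g (x, 0)) < 2 := by exact_mod_cast h2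
        omega
    omega
  have hreg : cnt (fun x => ¬ (hasS x ∧ hasL x)) ≤ 15 * c := by
    have h1 := h5 1 (fun a => (Pack_lab hM ht a).1)
    have h2 := cnt_add_not (fun a => free (g (a, 1)))
    have h3 := cnt_add_not (fun x => hasS x ∧ hasL x)
    have h4 := cnt_split (fun a => ¬ free (g (a, 1)))
      (fun a => ∃ x, g (a, 1) = g (x, 0) ∧ hasS x)
    have h6 : cnt (fun a => ¬ free (g (a, 1)) ∧ ∃ x, g (a, 1) = g (x, 0) ∧ hasS x)
        ≤ cnt (fun x => hasS x ∧ hasL x) * 1 := by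
      refine cnt_le_mul (fun a x => g (a, 1) = g (x, 0)) 1 (fun a ha => ?_) (fun x hx => ?_)
      · obtain ⟨-, x, hx, hx'⟩ := ha
        exact ⟨x, ⟨hx', a, hx⟩, hx⟩
      · obtain ⟨y, hy⟩ := hx.1
        have h1 := Pack_bin2 hM ht hg (g (x, 0)) {(x, 0), (y, 2)} 1 (by simp [hy]) (1 / 5)
          (fun a => (Pack_lab hM ht a).1)
        rw [sum_pair (by simp)] at h1
        have h2 : (cnt (fun a => g (a, 1) = g (x, 0)) : ℚ) < 2 := by
          linarith [(Pack_src hM ht x).1, (Pack_snk hM ht y).1]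
        have h3 : cnt (fun a => g (a, 1) = g (x, 0)) < 2 := by exact_mod_cast h2
        omega
    have h7 : cnt (fun a => ¬ free (g (a, 1)) ∧ ¬ ∃ x, g (a, 1) = g (x, 0) ∧ hasS x)
        ≤ cnt (fun x => ¬ hasS x) * 2 := by
      refine cnt_le_mul (fun a x => g (a, 1) = g (x, 0)) 2 (fun a ha => ?_) (fun x _ => ?_)
      · obtain ⟨x, hx⟩ := not_not.1 ha.1
        exact ⟨x, fun h => ha.2 ⟨x, hx.symm, h⟩, hx.symm⟩
      · have h1 := Pack_bin2 hM ht hg (g (x, 0)) {(x, 0)} 1 (by simp) (1 / 5)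
          (fun a => (Pack_lab hM ht a).1)
        rw [sum_singleton] at h1
        have h2 : (cnt (fun a => g (a, 1) = g (x, 0)) : ℚ) < 3 := by
          linarith [(Pack_src hM ht x).1]
        have h3 : cnt (fun a => g (a, 1) = g (x, 0)) < 3 := by exact_mod_cast h2
        omega
    omega
  let lab : W → Option W := fun x => if h : hasS x ∧ hasL x then some h.2.choose else none
  let snk : W → Option W := fun x => if h : hasS x ∧ hasL x then some h.1.choose else none
  have hlab : ∀ x a, lab x = some a → g (a, 1) = g (x, 0) := by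
    intro x a h
    by_cases hx : hasS x ∧ hasL x
    · simp only [lab, dif_pos hx, Option.some.injEq] at h
      exact h ▸ hx.2.choose_spec
    · simp [lab, dif_neg hx] at h
  have hsnk : ∀ x a, snk x = some a → g (a, 2) = g (x, 0) := by
    intro x a h
    by_cases hx : hasS x ∧ hasL x
    · simp only [snk, dif_pos hx, Option.some.injEq] at h
      exact h ▸ hx.1.choose_spec
    · simp [snk, dif_neg hx] at h
  have hln : ∀ x, lab x = none ↔ ¬ (hasS x ∧ hasL x) := by
    intro x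
    by_cases hx : hasS x ∧ hasL x
    · exact iff_of_false (by simp only [lab, dif_pos hx]; simp) (not_not.2 hx)
    · exact iff_of_true (by simp only [lab, dif_neg hx]) hx
  have hsn : ∀ x, snk x = none ↔ ¬ (hasS x ∧ hasL x) := by
    intro x
    by_cases hx : hasS x ∧ hasL x
    · exact iff_of_false (by simp only [snk, dif_pos hx]; simp) (not_not.2 hx)
    · exact iff_of_true (by simp only [snk, dif_neg hx]) hx
  refine ⟨lab, snk, fun x x' a h h' => hinj _ _ ((hlab _ _ h).symm.trans (hlab _ _ h')),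
    fun x x' a h h' => hinj _ _ ((hsnk _ _ h).symm.trans (hsnk _ _ h')),
    fun x => (hln x).trans (hsn x).symm, (cnt_congr hln).trans_le hreg, fun x a y ha hy => ?_⟩
  rw [← fits_iff hM]
  have h1 := Pack_bin hM ht hg (g (x, 0)) {(x, 0), (a, 1), (y, 2)} (by
    intro i hi
    simp only [mem_insert, mem_singleton] at hi
    rcases hi with rfl | rfl | rfl
    · rfl
    · exact hlab _ _ ha
    · exact hsnk _ _ hy)
  rw [sum_insert (by simp), sum_pair (by simp)] at h1
  linarith

lemma packs_of_fold (hM : 0 < M) (h : Fold 1 t) :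
    PacksInto (sizeOf3 M t) (Fintype.card W) := by
  classical
  obtain ⟨f, g, h⟩ := h
  let u : Fin 1 × W ≃ W := Equiv.uniqueProd W (Fin 1)
  let φ : W ≃ W := u.symm.trans (f.trans u)
  let ψ : W ≃ W := u.symm.trans (g.trans u)
  let E := Fintype.equivFin W
  let own : W × Fin 3 → W := fun i => ![i.1, φ.symm i.1, ψ.symm i.1] i.2
  refine ⟨fun i => E (own i), fun b => ?_⟩
  obtain ⟨x, rfl⟩ := E.surjective b
  have h1 : univ.filter (fun i => E (own i) = E x) = {(x, 0), (φ x, 1), (ψ x, 2)} := by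
    ext ⟨w, k⟩
    rcases Pack_three k with rfl | rfl | rfl <;> simp [own, Equiv.symm_apply_eq]
  rw [h1, sum_insert (by simp), sum_pair (by simp), ← add_assoc, fits_iff hM]
  exact h (u.symm x)

lemma bdd_ext {S : Sys} (hS : S.WF) (d : ℕ) : Bdd (3 * S.Z) (extDat S d) := by
  rintro (x | k)
  · have := hS.p_lt x
    have := hS.q_lt x
    have := hS.l_le x
    simp only [extDat]
    omega
  · simp [extDat]

lemma fold_of_comp {S : Sys} (hS : S.WF) {T d : ℕ} (h : S.Comp T d) : Fold T (extDat S d) := by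
  obtain ⟨σ, h1, h2⟩ := h
  obtain ⟨F, hF⟩ := exists_match (X := Fin T × S.X) (K := Fin T × Fin d)
    (fun y => S.p y.2 + S.l (σ y.1 y.2)) (fun y => S.q y.2) (fun θ => by simpa using h2 θ)
  let D := Equiv.prodSumDistrib (Fin T) S.X (Fin d)
  refine ⟨Equiv.prodCongrRight (fun j => Equiv.sumCongr (σ j) (Equiv.refl _)),
    D.trans (F.trans D.symm), ?_⟩
  rintro ⟨j, x | k⟩
  · have h3 := h1 j x
    have h4 := hF (j, x)
    simp only [Equiv.prodCongrRight_apply, Equiv.sumCongr_apply, Sum.map_inl, Equiv.trans_apply,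
      D, Equiv.prodSumDistrib_apply_left]
    rcases hy : F (.inl (j, x)) with y | y
    · have h5 := h4 y hy
      simp only [Equiv.prodSumDistrib_symm_apply_left, extDat] at h5 ⊢
      omega
    · simp only [Equiv.prodSumDistrib_symm_apply_right, extDat]
      omega
  · simp [extDat]

lemma Pack_restrict {X : Type} [Fintype X] {d : ℕ} {f : X ⊕ Fin d → Option (X ⊕ Fin d)}
    (hf : PInj f) :
    PInj (fun x => (f (.inl x)).bind Sum.getLeft?) ∧
      cnt (fun x => (f (.inl x)).bind Sum.getLeft? = none) ≤ cnt (fun w => f w = none) + d := by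
  constructor
  · intro x x' a h h'
    simp only [Option.bind_eq_some_iff, Sum.getLeft?_eq_some_iff] at h h'
    obtain ⟨_, h, rfl⟩ := h
    obtain ⟨_, h', rfl⟩ := h'
    exact Sum.inl_injective (hf _ _ _ h h')
  · refine (cnt_mono (Q := fun x => f (.inl x) = none ∨ ∃ k, f (.inl x) = some (.inr k))
      fun x hx => ?_).trans ((cnt_or_le _ _).trans (add_le_add ?_ ?_))
    · rcases h : f (.inl x) with _ | a | k
      · exact Or.inl rfl
      · simp [h] at hx
      · exact Or.inr ⟨k, rfl⟩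
    · exact cnt_le_of_inj Sum.inl (fun x hx => hx) (fun x x' _ _ h => Sum.inl_injective h)
    · refine (cnt_le_of_rel (Q := fun _ : Fin d => True) (fun x k => f (.inl x) = some (.inr k))
        (fun x hx => ?_) (fun x x' k _ _ h h' => Sum.inl_injective (hf _ _ _ h h'))).trans ?_
      · obtain ⟨k, hk⟩ := hx
        exact ⟨k, trivial, hk⟩
      · rw [cnt_true, Fintype.card_fin]

lemma not_packs {S : Sys} (hS : S.WF) {c d g : ℕ} (h : S.Sound (15 * c + d) (15 * c + d) g)
    (hg : 15 * c + d < g) :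
    ¬ PacksInto (sizeOf3 (3 * S.Z) (extDat S d)) (Fintype.card (S.X ⊕ Fin d) + c) := by
  intro hp
  have hZ := hS.Z_pos
  obtain ⟨lab, snk, hl, hs, hls, hc, hfit⟩ :=
    triples_of_packs (M := 3 * S.Z) (by omega) (bdd_ext hS d) hp
  obtain ⟨hl1, hl2⟩ := Pack_restrict hl
  obtain ⟨hs1, hs2⟩ := Pack_restrict hs
  have hc' : cnt (fun w => snk w = none) ≤ 15 * c := (cnt_congr hls).symm.trans_le hc
  have h1 := h _ _ ⟨hl1, hs1, fun x y hy => ?_⟩ (by omega) (by omega)
  · omega
  · simp only [Option.bind_eq_some_iff, Sum.getLeft?_eq_some_iff] at hy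
    obtain ⟨_, hy, rfl⟩ := hy
    unfold Sys.en
    rcases ha : lab (.inl x) with _ | a | k
    · rw [(hls _).1 ha] at hy
      cases hy
    · have := hfit _ _ _ ha hy
      simp only [extDat] at this
      simp only [ha, Option.bind_some, Sum.getLeft?_inl, Option.elim_some]
      omega
    · have := hfit _ _ _ ha hy
      simp only [extDat] at this
      simp only [ha, Option.bind_some, Sum.getLeft?_inr, Option.elim_none]
      omega

end Crest.Agent.R318
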