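import Crest.Agent.R318.SoundB
import Crest.Agent.R318.Comp
import Crest.Agent.R318.Graph
import Crest.Agent.R318.Pack

/-! The recursion. -/

set_option autoImplicit false
open Finset Crest.BinPacking

namespace Crest.Agent.R318

variable {n m κ : ℕ} {adj : ℕ → ℕ → Bool}

lemma sys_wf (r D : ℕ) : (sys n m κ adj r D).WF := by
  induction r generalizing D with
  | zero => exact ⟨le_rfl, fun x => x.elim, fun x => x.elim, fun x => x.elim, fun x => x.elim⟩
  | succ r ih => exact step_wf (ih _)

lemma sys_sound (hm : m ≤ n) (hno : No n m adj) (r D : ℕ) :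
    (sys n m κ adj r D).Sound D κ (2 * r) := by
  induction r generalizing D with
  | zero => intro _ _ _ _ _; exact Nat.zero_le _
  | succ r ih =>
    refine step_sound (sys_wf _ _) (ih _) le_rfl (Nat.mul_le_mul_left _ hm) ?_
    have := hno.copies (D + κ)
    rwa [← Nat.sub_sub] at this

lemma sys_comp {T : ℕ} (hy : Yes T n m adj) (r D : ℕ) : (sys n m κ adj r D).Comp T r := by
  induction r generalizing D with
  | zero =>
    refine ⟨fun _ => 1, fun _ x => x.elim, fun θ => ?_⟩
    rw [Nat.mul_zero, Nat.le_zero, cnt_eq_zero]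
    exact fun y => y.2.elim
  | succ r ih => exact step_comp (sys_wf _ _) (ih _) (hy.copies _)

/-- The system used for the gap `c`. -/
abbrev gapSys (c n m : ℕ) (adj : ℕ → ℕ → Bool) : Sys :=
  sys n m (15 * c + (15 * c + 1)) adj (15 * c + 1) (15 * c + (15 * c + 1))

theorem gap_no (c : ℕ) (hm : m ≤ n) (hno : No n m adj) :
    ¬ PacksInto (sizeOf3 (3 * (gapSys c n m adj).Z) (extDat (gapSys c n m adj) (15 * c + 1)))
      (Fintype.card ((gapSys c n m adj).X ⊕ Fin (15 * c + 1)) + c) :=
  not_packs (sys_wf _ _) (sys_sound hm hno _ _) (by omega)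

theorem gap_yes (c : ℕ) {T : ℕ} (hy : Yes T n m adj) :
    Fold T (extDat (gapSys c n m adj) (15 * c + 1)) :=
  fold_of_comp (sys_wf _ _) (sys_comp hy _ _)

end Crest.Agent.R318
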