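import Crest.Agent.R318.Defs
import Crest.Agent.Lib.PT.Exp

/-! The list forms are computable in polynomial time. -/

set_option autoImplicit false

namespace Crest.Agent.R318

open Crest.Agent.Lib.PT

variable {α : Type} [Enc α]

lemma poly_lit {F : α → List (List (ℕ × Bool))} {u : α → ℕ} (hF : PT F) (hu : PT u) :
    PT (fun a => lit (F a) (u a)) := by
  unfold lit
  fun_prop

lemma pt_satAdj {F : α → List (List (ℕ × Bool))} (hF : PT F) :
    PT (fun x : α × ℕ × ℕ => satAdj (F x.1) x.2.1 x.2.2) := by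
  have h1 : PT (fun x : α × ℕ × ℕ => lit (F x.1) x.2.1) := poly_lit (by fun_prop) (by fun_prop)
  have h2 : PT (fun x : α × ℕ × ℕ => lit (F x.1) x.2.2) := poly_lit (by fun_prop) (by fun_prop)
  unfold satAdj
  refine PT.and (by fun_prop) (PT.or (by fun_prop) (PT.and ?_ (PT.not ?_)))
  · exact PT.decide_eq h1.fst h2.fst
  · exact PT.decide_eq h1.snd h2.snd

lemma poly_fst {β : Type} [Enc β] : PT (fun p : α × β => p.1) := PT.id.fst

lemma poly_snd {β : Type} [Enc β] : PT (fun p : α × β => p.2) := PT.id.snd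

lemma poly_flatMap_range {γ : Type} [Enc γ] {n : α → ℕ} {g : α → ℕ → List γ} (hn : PT n)
    (hb : PB n) (hg : PT (fun p : α × ℕ => g p.1 (min (n p.1) p.2))) :
    PT (fun a => (List.range (n a)).flatMap (g a)) := by
  refine (PT.flatMap (g := fun a u => g a (min (n a) u)) (hn.range hb) hg).congr fun a => ?_
  refine List.flatMap_congr fun u hu => ?_
  rw [min_eq_right (List.mem_range.1 hu).le]

lemma poly_PBcond {c : α → Bool} {n m : α → ℕ} (hn : PB n) (hm : PB m) :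
    PB (fun a => bif c a then n a else m a) :=
  (hn.add hm).of_le fun a => by cases c a <;> simp

section par
variable {N μ Z u v i : α → ℕ} {s b : α → Bool}

lemma poly_W (hμ : PT μ) (hμ' : PB μ) (hZ : PT Z) :
    PT (fun a => (⟨N a, μ a, Z a⟩ : Par).W) := by
  simp only [Par.W]
  fun_prop

lemma poly_H (hN : PT N) (hN' : PB N) (hμ : PT μ) (hμ' : PB μ) (hZ : PT Z) :
    PT (fun a => (⟨N a, μ a, Z a⟩ : Par).H) := by
  have hW := poly_W (N := N) hμ hμ' hZ
  simp only [Par.H, Par.Y]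
  exact hW.mul (by fun_prop)

lemma poly_Wg (hN : PT N) (hN' : PB N) (hμ : PT μ) (hμ' : PB μ) (hZ : PT Z) :
    PT (fun a => (⟨N a, μ a, Z a⟩ : Par).Wg) := by
  have hH := poly_H hN hN' hμ hμ' hZ
  simp only [Par.Wg]
  exact PT.mul (by fun_prop) hH

lemma poly_Per (hN : PT N) (hN' : PB N) (hμ : PT μ) (hμ' : PB μ) (hZ : PT Z) :
    PT (fun a => (⟨N a, μ a, Z a⟩ : Par).Per) := by
  have hH := poly_Wg hN hN' hμ hμ' hZ
  simp only [Par.Per]
  exact (PT.mul (by fun_prop) hH).add (by fun_prop)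

lemma poly_off (hN : PT N) (hN' : PB N) (hμ : PT μ) (hμ' : PB μ) (hZ : PT Z) (hu : PT u)
    (hu' : PB u) (hv : PT v) (hv' : PB v) :
    PT (fun a => (⟨N a, μ a, Z a⟩ : Par).off (u a) (v a)) := by
  have hW := poly_W (N := N) hμ hμ' hZ
  simp only [Par.off, Par.Y, Par.col]
  exact hW.mul (by fun_prop)

lemma poly_cel (hN : PT N) (hN' : PB N) (hμ : PT μ) (hμ' : PB μ) (hZ : PT Z) (hu : PT u)
    (hu' : PB u) (hv : PT v) (hv' : PB v) (hs : PT s) (hi : PT i) :
    PT (fun a => (⟨N a, μ a, Z a⟩ : Par).cel (u a) (v a) (s a) (i a)) := by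
  have h1 := poly_off hN hN' hμ hμ' hZ hu hu' hv hv'
  have h2 := poly_Per hN hN' hμ hμ' hZ
  have h3 := poly_Wg hN hN' hμ hμ' hZ
  have h4 := poly_H hN hN' hμ hμ' hZ
  simp only [Par.cel, Par.base, Par.slot, gad]
  exact (((((hs.cond hv hu).mul h2).add h3).add (PT.const 2)).add
    ((hs.cond (hN.add hu) hv).mul h4)).add (hi.mul ((PT.const 4).mul h1))

lemma poly_sc (hμ : PT μ) (hμ' : PB μ) (hZ : PT Z) (hs : PT s) (hi : PT i) (hi' : PB i) :
    PT (fun a => (⟨N a, μ a, Z a⟩ : Par).sc (s a) (i a)) := by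
  simp only [Par.sc, Par.idx]
  exact hZ.pow (hs.cond (hμ.add hi) hi) (poly_PBcond (hμ'.add hi') hi')

lemma poly_datV {m : α → ℕ} (hN : PT N) (hN' : PB N) (hμ : PT μ) (hμ' : PB μ) (hZ : PT Z)
    (hm : PT m) (hv : PT v) : PT (fun a => (⟨N a, μ a, Z a⟩ : Par).datV (m a) (v a)) := by
  have h2 := poly_Per hN hN' hμ hμ' hZ
  have h3 := poly_Wg hN hN' hμ hμ' hZ
  simp only [Par.datV]
  exact (hv.mul h2).pair (((((hv.mul h2).add h3).add (PT.const 1))).pair
    (PT.ite (hv.decide_lt hm) ((h2.add h3).add (PT.const 1)) (PT.const 1)))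

lemma poly_datO (hN : PT N) (hN' : PB N) (hμ : PT μ) (hμ' : PB μ) (hZ : PT Z) (hu : PT u)
    (hu' : PB u) (hv : PT v) (hv' : PB v) (hs : PT s) (hi : PT i) (hb : PT b) :
    PT (fun a => (⟨N a, μ a, Z a⟩ : Par).datO (b a) (u a) (v a) (s a) (i a)) := by
  have h1 := poly_off hN hN' hμ hμ' hZ hu hu' hv hv'
  have h2 := poly_cel hN hN' hμ hμ' hZ hu hu' hv hv' hs hi
  simp only [Par.datO]
  exact h2.pair ((h2.add ((PT.const 2).mul h1)).pair (hb.cond ((PT.const 6).mul h1) h1))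

lemma poly_datW {t : α → ℕ × ℕ × ℕ} (hN : PT N) (hN' : PB N) (hμ : PT μ) (hμ' : PB μ) (hZ : PT Z)
    (hu : PT u) (hu' : PB u) (hv : PT v) (hv' : PB v) (hs : PT s) (hi : PT i) (hi' : PB i)
    (ht : PT t) :
    PT (fun a => (⟨N a, μ a, Z a⟩ : Par).datW (u a) (v a) (s a) (i a) (t a)) := by
  have h1 := poly_off hN hN' hμ hμ' hZ hu hu' hv hv'
  have h2 := poly_cel hN hN' hμ hμ' hZ hu hu' hv hv' hs hi
  have h3 := poly_sc (N := N) hμ hμ' hZ hs hi hi'
  simp only [Par.datW]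
  exact ((h2.add ((PT.const 2).mul h1)).add (h3.mul ht.fst)).pair
    (((h2.add ((PT.const 3).mul h1)).add (h3.mul ht.snd.fst)).pair (h1.add (h3.mul ht.snd.snd)))

lemma poly_cell {L : α → List (ℕ × ℕ × ℕ)} (hL : PT L) (hN : PT N) (hN' : PB N) (hμ : PT μ)
    (hμ' : PB μ) (hZ : PT Z) (hu : PT u) (hu' : PB u) (hv : PT v) (hv' : PB v) (hs : PT s)
    (hi : PT i) (hi' : PB i) (hb : PT b) :
    PT (fun a => (⟨N a, μ a, Z a⟩ : Par).datO (b a) (u a) (v a) (s a) (i a) ::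
      (L a).map ((⟨N a, μ a, Z a⟩ : Par).datW (u a) (v a) (s a) (i a))) := by
  refine (poly_datO hN hN' hμ hμ' hZ hu hu' hv hv' hs hi hb).cons (hL.map ?_)
  exact poly_datW (hN.comp poly_fst) (hN'.comp poly_fst) (hμ.comp poly_fst) (hμ'.comp poly_fst)
    (hZ.comp poly_fst) (hu.comp poly_fst) (hu'.comp poly_fst) (hv.comp poly_fst) (hv'.comp poly_fst)
    (hs.comp poly_fst) (hi.comp poly_fst) (hi'.comp poly_fst) poly_snd

lemma poly_cells {L : α → List (ℕ × ℕ × ℕ)} (hL : PT L) (hN : PT N) (hN' : PB N) (hμ : PT μ)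
    (hμ' : PB μ) (hZ : PT Z) (hu : PT u) (hu' : PB u) (hv : PT v) (hv' : PB v) (hs : PT s)
    (hb : PT b) :
    PT (fun a => (List.range (μ a)).flatMap fun i =>
      (⟨N a, μ a, Z a⟩ : Par).datO (b a) (u a) (v a) (s a) i ::
      (L a).map ((⟨N a, μ a, Z a⟩ : Par).datW (u a) (v a) (s a) i)) := by
  refine poly_flatMap_range hμ hμ' ?_
  exact poly_cell (hL.comp poly_fst) (hN.comp poly_fst) (hN'.comp poly_fst) (hμ.comp poly_fst)
    (hμ'.comp poly_fst) (hZ.comp poly_fst) (hu.comp poly_fst) (hu'.comp poly_fst) (hv.comp poly_fst)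
    (hv'.comp poly_fst) (hs.comp poly_fst) ((hμ.comp poly_fst).min poly_snd)
    ((hμ'.comp poly_fst).min_left _) (hb.comp poly_fst)

lemma poly_col {L : α → List (ℕ × ℕ × ℕ)} (hL : PT L) (hN : PT N) (hN' : PB N) (hμ : PT μ)
    (hμ' : PB μ) (hZ : PT Z) (hu : PT u) (hu' : PB u) (hv : PT v) (hv' : PB v)
    (hb : PT b) :
    PT (fun a => [false, true].flatMap fun s => (List.range (μ a)).flatMap fun i =>
      (⟨N a, μ a, Z a⟩ : Par).datO (!s && b a) (u a) (v a) s i ::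
      (L a).map ((⟨N a, μ a, Z a⟩ : Par).datW (u a) (v a) s i)) := by
  refine PT.flatMap (l := fun _ => [false, true]) (PT.const _) ?_
  exact poly_cells (hL.comp poly_fst) (hN.comp poly_fst) (hN'.comp poly_fst) (hμ.comp poly_fst)
    (hμ'.comp poly_fst) (hZ.comp poly_fst) (hu.comp poly_fst) (hu'.comp poly_fst) (hv.comp poly_fst)
    (hv'.comp poly_fst) poly_snd ((poly_snd (α := α) (β := Bool)).not.and (hb.comp poly_fst))

lemma poly_row {L : α → List (ℕ × ℕ × ℕ)} {adj : α → ℕ → Bool} (hL : PT L) (hN : PT N)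
    (hN' : PB N) (hμ : PT μ) (hμ' : PB μ) (hZ : PT Z) (hu : PT u) (hu' : PB u)
    (hadj : PT (fun x : α × ℕ => adj x.1 x.2)) :
    PT (fun a => (List.range (N a)).flatMap fun v =>
      [false, true].flatMap fun s => (List.range (μ a)).flatMap fun i =>
      (⟨N a, μ a, Z a⟩ : Par).datO (!s && adj a v) (u a) v s i ::
      (L a).map ((⟨N a, μ a, Z a⟩ : Par).datW (u a) v s i)) := by
  refine poly_flatMap_range hN hN' ?_
  exact poly_col (hL.comp poly_fst) (hN.comp poly_fst) (hN'.comp poly_fst) (hμ.comp poly_fst)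
    (hμ'.comp poly_fst) (hZ.comp poly_fst) (hu.comp poly_fst) (hu'.comp poly_fst)
    ((hN.comp poly_fst).min poly_snd) ((hN'.comp poly_fst).min_left _)
    (hadj.comp (f := fun p : α × ℕ => (p.1, min (N p.1) p.2))
      (PT.pair poly_fst ((hN.comp poly_fst).min poly_snd)))

lemma poly_stepL {L : α → List (ℕ × ℕ × ℕ)} {m : α → ℕ} {adj : α → ℕ → ℕ → Bool} (hL : PT L)
    (hN : PT N) (hN' : PB N) (hμ : PT μ) (hμ' : PB μ) (hZ : PT Z) (hm : PT m)
    (hadj : PT (fun x : α × ℕ × ℕ => adj x.1 x.2.1 x.2.2)) :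
    PT (fun a => stepL (L a) ⟨N a, μ a, Z a⟩ (m a) (adj a)) := by
  unfold stepL
  refine PT.append ((hN.range hN').map ?_) (poly_flatMap_range hN hN' ?_)
  · exact poly_datV (hN.comp poly_fst) (hN'.comp poly_fst) (hμ.comp poly_fst) (hμ'.comp poly_fst)
      (hZ.comp poly_fst) (hm.comp poly_fst) poly_snd
  · exact poly_row (adj := fun p : α × ℕ => adj p.1 (min (N p.1) p.2))
      (hL.comp poly_fst) (hN.comp poly_fst) (hN'.comp poly_fst) (hμ.comp poly_fst)
      (hμ'.comp poly_fst) (hZ.comp poly_fst) ((hN.comp poly_fst).min poly_snd)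
      ((hN'.comp poly_fst).min_left _)
      (hadj.comp (f := fun p : (α × ℕ) × ℕ => (p.1.1, min (N p.1.1) p.1.2, p.2))
        (by fun_prop))

end par

lemma poly_copies {n : α → ℕ} {adj : α → ℕ → ℕ → Bool} (hn : PT n)
    (hadj : PT (fun x : α × ℕ × ℕ => adj x.1 x.2.1 x.2.2)) :
    PT (fun x : α × ℕ × ℕ => copies (n x.1) (adj x.1) x.2.1 x.2.2) := by
  unfold copies
  exact PT.and (by fun_prop)
    (hadj.comp (f := fun x : α × ℕ × ℕ => (x.1, x.2.1 % n x.1, x.2.2 % n x.1)) (by fun_prop))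

lemma pt_sysL {n m : α → ℕ} {adj : α → ℕ → ℕ → Bool} (κ : ℕ) (hn : PT n) (hn' : PB n) (hm : PT m)
    (hadj : PT (fun x : α × ℕ × ℕ => adj x.1 x.2.1 x.2.2)) (r : ℕ) {D : α → ℕ} (hD : PT D)
    (hD' : PB D) : PT (fun a => sysL (n a) (m a) κ (adj a) r (D a)) := by
  induction r generalizing D with
  | zero => exact PT.const _
  | succ r ih =>
    have hN : PT (fun a => kN (n a) κ (D a)) := by unfold kN; fun_prop
    have hN' : PB (fun a => kN (n a) κ (D a)) := by unfold kN; fun_prop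
    have hM : PT (fun a => kN (m a) κ (D a)) := by unfold kN; fun_prop
    have hμ : PT (fun a => kμ (kN (n a) κ (D a)) κ (D a)) := by unfold kμ kE kN; fun_prop
    have hμ' : PB (fun a => kμ (kN (n a) κ (D a)) κ (D a)) := by unfold kμ kE kN; fun_prop
    have hD1 : PT (fun a => kD (kN (n a) κ (D a)) (kμ (kN (n a) κ (D a)) κ (D a)) κ (D a)) := by
      unfold kD
      exact hD.add ((PT.const 2).mul (hN.add ((((PT.const 2).mul (hN.mul hN)).mul hμ).mul
        (PT.const _))))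
    have hD1' : PB (fun a => kD (kN (n a) κ (D a)) (kμ (kN (n a) κ (D a)) κ (D a)) κ (D a)) := by
      unfold kD
      exact hD'.add ((PB.const 2).mul (hN'.add ((((PB.const 2).mul (hN'.mul hN')).mul hμ').mul
        (PB.const _))))
    have hR := ih hD1 hD1'
    exact (poly_stepL hR.fst hN hN' hμ hμ' hR.snd hM (poly_copies hn hadj)).pair
      ((hN.add (PT.const 1)).mul (poly_Per hN hN' hμ hμ' hR.snd))

lemma pt_extL {L : α → List (ℕ × ℕ × ℕ)} {Z : α → ℕ} (hL : PT L) (hZ : PT Z) (d : ℕ) :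
    PT (fun a => extL (L a) (Z a) d) := by
  unfold extL
  fun_prop

lemma pt_itemsL {L : α → List (ℕ × ℕ × ℕ)} {M : α → ℕ} (hL : PT L) (hM : PT M) :
    PT (fun a => itemsL (M a) (L a)) := by
  unfold itemsL srcSz labSz snkSz
  fun_prop

end Crest.Agent.R318
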