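import Crest.Agent.R318.Gen

/-! The list forms list the data of the systems. -/

set_option autoImplicit false
open Finset Crest.BinPacking

namespace Crest.Agent.R318

lemma rep_sum_single {α ι : Type} [Fintype ι] (f : ι → α) :
    ∑ x, ({f x} : Multiset α) = Multiset.map f (univ : Finset ι).val := by
  rw [Finset.sum_eq_multiset_sum, ← Function.comp_def (fun a => ({a} : Multiset α)) f,
    ← Multiset.map_map, Multiset.sum_map_singleton]

lemma Rep.map {α β ι : Type} [Fintype ι] {L : List α} {f : ι → α} (h : Rep L f) (g : α → β) :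
    ((L.map g : List β) : Multiset β) = ∑ x, ({g (f x)} : Multiset β) := by
  rw [← Multiset.map_coe, h, rep_sum_single, rep_sum_single, Multiset.map_map]
  rfl

lemma rep_range {α : Type} (n : ℕ) (g : ℕ → List α) :
    (((List.range n).flatMap g : List α) : Multiset α) = ∑ i : Fin n, (g i : Multiset α) := by
  rw [Fin.sum_univ_eq_sum_range (fun i => (g i : Multiset α))]
  induction n with
  | zero => simp
  | succ n ih => rw [List.range_succ, List.flatMap_append, ← Multiset.coe_add, ih, sum_range_succ,
      List.flatMap_singleton]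

lemma rep_bool {α : Type} (g : Bool → List α) :
    (([false, true].flatMap g : List α) : Multiset α) = ∑ s : Bool, (g s : Multiset α) := by
  rw [Fintype.sum_bool, add_comm, Multiset.coe_add]
  simp

lemma rep_packs_comp {ι κ : Type} [Fintype ι] [Fintype κ] (e : κ ≃ ι) {f : ι → ℚ} {k : ℕ}
    (h : PacksInto f k) : PacksInto (f ∘ e) k := by
  obtain ⟨b, hb⟩ := h
  refine ⟨b ∘ e, fun j => le_of_eq_of_le ?_ (hb j)⟩
  exact Finset.sum_equiv e (by simp) (by simp)

lemma Rep.exists_equiv {α ι : Type} [Fintype ι] {L : List α} {f : ι → α} (h : Rep L f) :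
    ∃ e : Fin L.length ≃ ι, ∀ i, L.get i = f (e i) := by
  classical
  have h1 : Multiset.map L.get (univ : Finset (Fin L.length)).val =
      Multiset.map f (univ : Finset ι).val := by
    rw [← rep_sum_single f, ← h, Fin.univ_val_map, List.ofFn_get]
  have h2 : ∀ a : α, Fintype.card {i // L.get i = a} = Fintype.card {i // f i = a} := by
    intro a
    have := congrArg (Multiset.count a) h1
    rw [Multiset.count_map, Multiset.count_map] at this
    rw [Fintype.card_subtype, Fintype.card_subtype]
    simp only [eq_comm (a := a)] at this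
    exact this
  exact ⟨Equiv.ofFiberEquiv fun a => Fintype.equivOfCardEq (h2 a),
    fun i => (Equiv.ofFiberEquiv_map _ i).symm⟩

lemma Rep.length_eq {α ι : Type} [Fintype ι] {L : List α} {f : ι → α} (h : Rep L f) :
    L.length = Fintype.card ι := by
  obtain ⟨e, -⟩ := h.exists_equiv
  rw [← Fintype.card_congr e, Fintype.card_fin]

lemma Rep.mem {α ι : Type} [Fintype ι] {L : List α} {f : ι → α} (h : Rep L f) {a : α}
    (ha : a ∈ L) : ∃ i, f i = a := by
  obtain ⟨e, he⟩ := h.exists_equiv
  obtain ⟨i, rfl⟩ := List.get_of_mem ha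
  exact ⟨e i, (he i).symm⟩

lemma Rep.packs_iff {ι : Type} [Fintype ι] {L : List ℚ} {f : ι → ℚ} (h : Rep L f) (k : ℕ) :
    PacksInto (fun i : Fin L.length => L.get i) k ↔ PacksInto f k := by
  obtain ⟨e, he⟩ := h.exists_equiv
  rw [show (fun i : Fin L.length => L.get i) = f ∘ e from funext he]
  constructor
  · intro h
    have := rep_packs_comp e.symm h
    rwa [Function.comp_assoc, Equiv.self_comp_symm, Function.comp_id] at this
  · exact rep_packs_comp e

lemma rep_step {S : Sys} {L : List (ℕ × ℕ × ℕ)} (h : Rep L S.dat) (N μ m : ℕ)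
    (adj : ℕ → ℕ → Bool) : Rep (stepL L ⟨N, μ, S.Z⟩ m adj) (step S N μ m adj).dat := by
  unfold Rep stepL
  rw [← Multiset.coe_add, Fintype.sum_sum_type]
  congr 1
  · rw [List.map_eq_flatMap, rep_range]
    rfl
  · rw [rep_range, Fintype.sum_prod_type]
    refine sum_congr rfl fun u _ => ?_
    rw [rep_range, Fintype.sum_prod_type]
    refine sum_congr rfl fun v _ => ?_
    rw [rep_bool, Fintype.sum_prod_type]
    refine sum_congr rfl fun s _ => ?_
    rw [rep_range, Fintype.sum_prod_type]
    refine sum_congr rfl fun i _ => ?_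
    rw [Fintype.sum_option, ← Multiset.cons_coe, ← Multiset.singleton_add, h.map]
    rfl

lemma rep_sys (n m κ : ℕ) (adj : ℕ → ℕ → Bool) (r D : ℕ) :
    Rep (sysL n m κ adj r D).1 (sys n m κ adj r D).dat ∧
      (sysL n m κ adj r D).2 = (sys n m κ adj r D).Z := by
  induction r generalizing D with
  | zero => exact ⟨by simp [Rep, sysL, sys, Sys.empty], rfl⟩
  | succ r ih =>
    obtain ⟨h1, h2⟩ := ih (kD (kN n κ D) (kμ (kN n κ D) κ D) κ D)
    simp only [sysL, sys]
    rw [h2]
    exact ⟨rep_step h1 _ _ _ _, rfl⟩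

lemma rep_ext {S : Sys} {L : List (ℕ × ℕ × ℕ)} (h : Rep L S.dat) (d : ℕ) :
    Rep (extL L S.Z d) (extDat S d) := by
  unfold Rep extL
  rw [← Multiset.coe_add, Fintype.sum_sum_type, h.map]
  congr 1
  simp [extDat, Multiset.nsmul_singleton, Multiset.coe_replicate]

lemma rep_items {W : Type} [Fintype W] {t : W → ℕ × ℕ × ℕ} {L : List (ℕ × ℕ × ℕ)} (h : Rep L t)
    (M : ℕ) : Rep (itemsL M L) (sizeOf3 M t) := by
  unfold Rep itemsL
  rw [← Multiset.coe_bind, h, Fintype.sum_prod_type, rep_sum_single, Multiset.bind_map,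
    Multiset.bind, Multiset.join, ← Finset.sum_eq_multiset_sum]
  refine sum_congr rfl fun x _ => ?_
  rw [Fin.sum_univ_three]
  rfl

end Crest.Agent.R318
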