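import Crest.Agent.R318.Geo

/-! Soundness of a step, part A: privacy of colours and walls, restriction to a wall. -/

set_option autoImplicit false
open Finset

namespace Crest.Agent.R318

variable {S : Sys} {N μ m : ℕ} {adj : ℕ → ℕ → Bool}
  {lab snk : SX N μ S.X → Option (SX N μ S.X)} {κ D : ℕ}

lemma soundA_inl : cnt (fun x : SX N μ S.X => ∃ v, x = .inl v) ≤ N := by
  have := cnt_le_of_rel (P := fun x : SX N μ S.X => ∃ v, x = .inl v) (Q := fun _ : Fin N => True)
    (fun x v => x = .inl v) (fun x ⟨v, hv⟩ => ⟨v, trivial, hv⟩)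
    (fun x x' v _ _ e e' => e.trans e'.symm)
  rwa [cnt_true, Fintype.card_fin] at this

lemma soundA_own :
    cnt (fun x : SX N μ S.X => ∃ u v s i, x = .inr (u, v, s, i, none)) ≤ 2 * (N * N) * μ := by
  have := cnt_le_of_rel (P := fun x : SX N μ S.X => ∃ u v s i, x = .inr (u, v, s, i, none))
    (Q := fun _ : Fin N × Fin N × Bool × Fin μ => True)
    (fun x w => x = .inr (w.1, w.2.1, w.2.2.1, w.2.2.2, none))
    (fun x ⟨u, v, s, i, hv⟩ => ⟨(u, v, s, i), trivial, hv⟩)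
    (fun x x' v _ _ e e' => e.trans e'.symm)
  rw [cnt_true] at this
  simp only [Fintype.card_prod, Fintype.card_fin, Fintype.card_bool] at this
  calc _ ≤ _ := this
    _ = _ := by ring

lemma soundA_off_pos (hS : S.WF) (u v : ℕ) : 1 ≤ (⟨N, μ, S.Z⟩ : Par).off u v := by
  have h1 := (⟨N, μ, S.Z⟩ : Par).W_pos hS.Z_pos
  have h2 := (⟨N, μ, S.Z⟩ : Par).four_W_le_off u v
  omega

lemma soundA_en {x a : SX N μ S.X} (h : lab x = some a) :
    (step S N μ m adj).en lab x = (step S N μ m adj).p x + (step S N μ m adj).l a := by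
  simp only [Sys.en, h, Option.elim_some]

lemma soundA_cl2 (u v : Fin N) (s : Bool) (i : Fin μ) (y : S.X) :
    cl2 (wall u v s i y) = (⟨N, μ, S.Z⟩ : Par).col u v * (2 * μ) + (⟨N, μ, S.Z⟩ : Par).idx s i + 1 :=
  rfl

lemma soundA_cl2_pos {a : SX N μ S.X} (h : 0 < cl2 a) : ∃ u v s i y, a = wall u v s i y := by
  rcases a with v | ⟨u, v, s, i, _ | y⟩
  · exact absurd h (lt_irrefl 0)
  · exact absurd h (lt_irrefl 0)
  · exact ⟨u, v, s, i, y, rfl⟩

lemma soundA_cross (h : (step S N μ m adj).Valid lab snk) (hκ : cnt (fun x => snk x = none) ≤ κ)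
    {θ : ℕ} (hθ : (step S N μ m adj).Clear θ) :
    cnt (fun x : SX N μ S.X => (step S N μ m adj).Cross snk θ x) ≤ κ := by
  have := cross_le (step S N μ m adj) h hθ
  exact le_trans this hκ

lemma soundA_divmod {c c' k k' M : ℕ} (hk' : k' < M) (h : c * M + k ≤ c' * M + k') : c ≤ c' := by
  by_contra hc
  have : (c' + 1) * M ≤ c * M := Nat.mul_le_mul_right _ (by omega)
  rw [add_mul, one_mul] at this
  omega

/-- Few labels are used in a smaller colour. -/
lemma up1 (hS : S.WF) (h : (step S N μ m adj).Valid lab snk)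
    (hκ : cnt (fun x => snk x = none) ≤ κ) :
    cnt (fun x => ∃ a, lab x = some a ∧ cl1 x < cl1 a) ≤ N + 2 * (N * N) * κ := by
  have h2 : cnt (fun x : SX N μ S.X => (∃ a, lab x = some a ∧ cl1 x < cl1 a) ∧ ¬ ∃ v, x = .inl v)
      ≤ cnt (fun _ : Fin N × Fin N × Bool => True) * κ := by
    refine cnt_le_mul (fun x (w : Fin N × Fin N × Bool) => (step S N μ m adj).Cross snk
      ((⟨N, μ, S.Z⟩ : Par).cel w.1 w.2.1 w.2.2 μ) x) κ ?_ ?_
    swap
    · intro w _
      have := soundA_cross h hκ (clear_virt hS w.1 w.2.1 w.2.2)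
      exact this
    rintro x ⟨⟨a, ha, hlt⟩, hx⟩
    rcases x with v | ⟨u, v, s, i, o⟩
    · exact absurd ⟨v, rfl⟩ hx
    refine ⟨(u, v, s), trivial, ?_⟩
    rcases a with v' | ⟨u', v', s', i', o'⟩
    · exact absurd hlt (Nat.not_lt_zero _)
    have hc : (⟨N, μ, S.Z⟩ : Par).col u v < (⟨N, μ, S.Z⟩ : Par).col u' v' :=
      Nat.lt_of_succ_lt_succ hlt
    have h3 := (⟨N, μ, S.Z⟩ : Par).off_mono hc
    obtain ⟨a1, a2, -, -, a5, -⟩ := step_cell (m := m) (adj := adj) hS u v s i o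
    obtain ⟨-, -, -, -, -, b6⟩ := step_cell (m := m) (adj := adj) hS u' v' s' i' o'
    have h4 := (⟨N, μ, S.Z⟩ : Par).cel_mono u v s i.2
    have h5 := (⟨N, μ, S.Z⟩ : Par).base_le_cel u v s i
    have h6 := soundA_off_pos (N := N) (μ := μ) hS u v
    have h7 : (⟨N, μ, S.Z⟩ : Par).cel u v s μ =
      (⟨N, μ, S.Z⟩ : Par).base u v s + μ * (4 * (⟨N, μ, S.Z⟩ : Par).off u v) := rfl
    rw [add_mul, one_mul] at h3
    refine cross_of_en _ h ?_ ?_
    · dsimp only at *
      omega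
    · rw [soundA_en ha]
      dsimp only at *
      omega
  rw [cnt_true] at h2
  simp only [Fintype.card_prod, Fintype.card_fin, Fintype.card_bool] at h2
  rw [cnt_split _ fun x => ∃ v, x = .inl v]
  have h1 := (cnt_mono (P := fun x : SX N μ S.X => (∃ a, lab x = some a ∧ cl1 x < cl1 a) ∧
    ∃ v, x = .inl v) fun x hx => hx.2).trans (soundA_inl (S := S) (N := N) (μ := μ))
  calc _ ≤ N + N * (N * 2) * κ := add_le_add h1 h2
    _ = _ := by ring

/-- Few labels are used in a smaller wall. -/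
lemma up2 (hS : S.WF) (h : (step S N μ m adj).Valid lab snk)
    (hκ : cnt (fun x => snk x = none) ≤ κ) :
    cnt (fun x => ∃ a, lab x = some a ∧ cl2 x < cl2 a) ≤ N + 2 * (N * N) * μ * (1 + κ) := by
  have h3 : cnt (fun x : SX N μ S.X => (∃ a, lab x = some a ∧ cl2 x < cl2 a) ∧
        ∃ u v s i y, x = wall u v s i y)
      ≤ cnt (fun _ : Fin N × Fin N × Bool × Fin μ => True) * κ := by
    refine cnt_le_mul (fun x (w : Fin N × Fin N × Bool × Fin μ) => (step S N μ m adj).Cross snk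
      ((⟨N, μ, S.Z⟩ : Par).th w.1 w.2.1 w.2.2.1 w.2.2.2) x) κ ?_ ?_
    swap
    · intro w _
      have := soundA_cross h hκ (clear_th hS w.1 w.2.1 w.2.2.1 w.2.2.2)
      exact this
    rintro x ⟨⟨a, ha, hlt⟩, u, v, s, i, y, rfl⟩
    refine ⟨(u, v, s, i), trivial, ?_⟩
    obtain ⟨u', v', s', i', y', rfl⟩ := soundA_cl2_pos (Nat.zero_lt_of_lt hlt)
    rw [soundA_cl2, soundA_cl2] at hlt
    obtain ⟨a1, a2, -, -, a5, -⟩ := step_cell (m := m) (adj := adj) hS u v s i (some y)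
    obtain ⟨-, -, -, -, -, b6⟩ := step_cell (m := m) (adj := adj) hS u' v' s' i' (some y')
    have hi' := (⟨N, μ, S.Z⟩ : Par).idx_lt s' i'.2
    have hle := soundA_divmod hi' (Nat.le_of_lt (Nat.lt_of_succ_lt_succ hlt))
    refine cross_of_en _ h a2 ?_
    rw [soundA_en ha]
    rcases hle.lt_or_eq with hc | hc
    · have h3 := (⟨N, μ, S.Z⟩ : Par).off_mono hc
      rw [add_mul, one_mul] at h3
      dsimp only [wall] at *
      omega
    · obtain ⟨e1, e2⟩ := (⟨N, μ, S.Z⟩ : Par).col_inj v.2 v'.2 hc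
      have hidx : (⟨N, μ, S.Z⟩ : Par).idx s i < (⟨N, μ, S.Z⟩ : Par).idx s' i' := by
        rw [hc] at hlt
        omega
      have h4 := (⟨N, μ, S.Z⟩ : Par).sc_mul_le_sc hS.Z_pos hidx
      have h5 : (⟨N, μ, S.Z⟩ : Par).sc s' i' * 1 ≤ (⟨N, μ, S.Z⟩ : Par).sc s' i' * S.l y' :=
        Nat.mul_le_mul_left _ (hS.l_pos y')
      have h6 := soundA_off_pos (N := N) (μ := μ) hS u v
      have p1 : (step S N μ m adj).p (wall u v s i y) = (⟨N, μ, S.Z⟩ : Par).cel u v s i +
        2 * (⟨N, μ, S.Z⟩ : Par).off u v + (⟨N, μ, S.Z⟩ : Par).sc s i * S.p y := rfl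
      have p2 : (step S N μ m adj).l (wall u' v' s' i' y') = (⟨N, μ, S.Z⟩ : Par).off u' v' +
        (⟨N, μ, S.Z⟩ : Par).sc s' i' * S.l y' := rfl
      have p3 : (⟨N, μ, S.Z⟩ : Par).th u v s i = (⟨N, μ, S.Z⟩ : Par).cel u v s i +
        3 * (⟨N, μ, S.Z⟩ : Par).off u v + (⟨N, μ, S.Z⟩ : Par).sc s i * S.Z - 1 := rfl
      rw [p1, p2, ← e1, ← e2]
      change (⟨N, μ, S.Z⟩ : Par).th u v s i < _
      rw [p3]
      change (⟨N, μ, S.Z⟩ : Par).sc s i * S.Z ≤ _ at h4
      omega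
  rw [cnt_true] at h3
  simp only [Fintype.card_prod, Fintype.card_fin, Fintype.card_bool] at h3
  have h4 : cnt (fun x : SX N μ S.X => (∃ a, lab x = some a ∧ cl2 x < cl2 a) ∧
        ¬ ∃ u v s i y, x = wall u v s i y) ≤ N + 2 * (N * N) * μ := by
    refine le_trans (cnt_mono (Q := fun x : SX N μ S.X => (∃ v, x = .inl v) ∨
      ∃ u v s i, x = .inr (u, v, s, i, none)) ?_) ((cnt_or_le _ _).trans
        (add_le_add soundA_inl soundA_own))
    rintro x ⟨-, hx⟩
    rcases x with v | ⟨u, v, s, i, _ | y⟩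
    · exact .inl ⟨v, rfl⟩
    · exact .inr ⟨u, v, s, i, rfl⟩
    · exact absurd ⟨u, v, s, i, y, rfl⟩ hx
  rw [cnt_split _ fun x => ∃ u v s i y, x = wall u v s i y]
  calc _ ≤ N * (N * (2 * μ)) * κ + (N + 2 * (N * N) * μ) := add_le_add h3 h4
    _ = _ := by ring

/-- Few walls of a colour are not clean. -/
lemma unclean_le (hS : S.WF) (h : (step S N μ m adj).Valid lab snk)
    (hD : cnt (fun x => lab x = none) ≤ D) (hκ : cnt (fun x => snk x = none) ≤ κ) (u v : Fin N) :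
    cnt (fun w : Bool × Fin μ => ¬ Clean lab u v w.1 w.2) ≤ kE N κ D := by
  have h1 := (privacy h.lab_inj cl1 (up1 hS h hκ) (u * N + v + 1)).1
  refine le_trans (cnt_le_of_rel (fun w x => ∃ y, x = wall u v w.1 w.2 y) ?_ ?_)
    (h1.trans (Nat.add_le_add_right hD _))
  · intro w hw
    obtain ⟨y, hy⟩ := not_forall.1 hw
    exact ⟨wall u v w.1 w.2 y, ⟨rfl, hy⟩, y, rfl⟩
  · rintro ⟨s, i⟩ ⟨s', i'⟩ x - - ⟨y, rfl⟩ ⟨y', e⟩
    simp only [wall, Sum.inr.injEq, Prod.mk.injEq, true_and] at e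
    rw [e.1, e.2.1]

/-- Few labels of a colour are not used in the colour. -/
lemma lost_le (hS : S.WF) (h : (step S N μ m adj).Valid lab snk)
    (hD : cnt (fun x => lab x = none) ≤ D) (hκ : cnt (fun x => snk x = none) ≤ κ) (u v : Fin N) :
    cnt (fun a : SX N μ S.X => cl1 a = u * N + v + 1 ∧
      ¬ ∃ x, lab x = some a ∧ cl1 x = u * N + v + 1) ≤ kE N κ D := by
  exact (privacy h.lab_inj cl1 (up1 hS h hκ) (u * N + v + 1)).2.trans (Nat.add_le_add_right hD _)

/-- Few sources of a wall use a label from outside the wall. -/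
lemma wall_lost_le (hS : S.WF) (h : (step S N μ m adj).Valid lab snk)
    (hD : cnt (fun x => lab x = none) ≤ D) (hκ : cnt (fun x => snk x = none) ≤ κ) (u v : Fin N)
    (s : Bool) (i : Fin μ) :
    cnt (fun y : S.X => ¬ ∃ a, lab (wall u v s i y) = some (wall u v s i a)) ≤ kD N μ κ D := by
  have h1 := (privacy h.lab_inj cl2 (up2 hS h hκ)
    ((⟨N, μ, S.Z⟩ : Par).col u v * (2 * μ) + (⟨N, μ, S.Z⟩ : Par).idx s i + 1)).1
  refine le_trans (cnt_le_of_inj (fun y => wall u v s i y) ?_ ?_)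
    (h1.trans (Nat.add_le_add_right hD _))
  · intro y hy
    refine ⟨rfl, ?_⟩
    rintro ⟨a, ha, hc⟩
    obtain ⟨u', v', s', i', y', rfl⟩ := soundA_cl2_pos (a := a) (by omega)
    rw [soundA_cl2] at hc
    have hi := (⟨N, μ, S.Z⟩ : Par).idx_lt s i.2
    have hi' := (⟨N, μ, S.Z⟩ : Par).idx_lt s' i'.2
    have hc' := Nat.succ_injective hc
    have e : (⟨N, μ, S.Z⟩ : Par).col u' v' = (⟨N, μ, S.Z⟩ : Par).col u v :=
      le_antisymm (soundA_divmod hi hc'.le) (soundA_divmod hi' hc'.ge)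
    obtain ⟨e1, e2⟩ := (⟨N, μ, S.Z⟩ : Par).col_inj v'.2 v.2 e
    rw [e] at hc'
    obtain ⟨e3, e4⟩ := (⟨N, μ, S.Z⟩ : Par).idx_inj i'.2 i.2 (Nat.add_left_cancel hc')
    obtain rfl := Fin.ext e1
    obtain rfl := Fin.ext e2
    obtain rfl := Fin.ext e4
    subst e3
    exact hy ⟨y', ha⟩
  · intro y y' _ _ e
    simpa [wall] using e

lemma SoundA_pull {X Y : Type} {w : X → Y} (hw : Function.Injective w) (f : Y → Option Y) :
    ∃ f' : X → Option X, ∀ y a, f' y = some a ↔ f (w y) = some (w a) := by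
  classical
  refine ⟨fun y => if h : ∃ a, f (w y) = some (w a) then some h.choose else none, fun y a => ?_⟩
  dsimp only
  split_ifs with h
  · refine ⟨fun e => Option.some_inj.1 e ▸ h.choose_spec, fun e => congrArg some (hw ?_)⟩
    exact Option.some_inj.1 (h.choose_spec.symm.trans e)
  · exact iff_of_false (by simp) fun h' => h ⟨a, h'⟩

lemma SoundA_two {X : Type} [Fintype X] {C : X → Prop} {x₁ x₂ : X} (hne : x₁ ≠ x₂) (c₁ : C x₁)
    (c₂ : C x₂) : cnt (fun x => (C x ∧ ¬ x = x₁) ∧ ¬ x = x₂) + 2 ≤ cnt C := by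
  have e₁ := cnt_split C (fun x => x = x₁)
  have e₂ := cnt_split (fun x => C x ∧ ¬ x = x₁) (fun x => x = x₂)
  have p₁ : 0 < cnt (fun x => C x ∧ x = x₁) := cnt_pos.2 ⟨x₁, c₁, rfl⟩
  have p₂ : 0 < cnt (fun x => (C x ∧ ¬ x = x₁) ∧ x = x₂) := cnt_pos.2 ⟨x₂, ⟨c₂, hne.symm⟩, rfl⟩
  omega

lemma SoundA_en (hS : S.WF) {u v : Fin N} {s : Bool} {i : Fin μ} (hc : Clean lab u v s i)
    (y : S.X) : (step S N μ m adj).p (wall u v s i y) + (⟨N, μ, S.Z⟩ : Par).off u v ≤
      (step S N μ m adj).en lab (wall u v s i y) := by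
  obtain ⟨a, ha, hcl⟩ := hc y
  rw [Sys.en, ha, Option.elim_some, add_le_add_iff_left]
  rcases a with a | ⟨u', v', s', i', o⟩
  · simp [cl1] at hcl
  · have e : (⟨N, μ, S.Z⟩ : Par).off u v = (⟨N, μ, S.Z⟩ : Par).off u' v' := by
      simp only [cl1, add_left_inj] at hcl
      simp only [Par.off, Par.col, hcl]
    rw [e]
    exact (step_cell (m := m) (adj := adj) hS u' v' s' i' o).2.2.2.2.2

lemma SoundA_cross (hS : S.WF) (h : (step S N μ m adj).Valid lab snk) {u v : Fin N} {s : Bool}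
    {i : Fin μ} (hc : Clean lab u v s i) (y : S.X)
    (hy : ∀ a, snk (wall u v s i y) ≠ some (wall u v s i a)) :
    (step S N μ m adj).Cross snk ((⟨N, μ, S.Z⟩ : Par).th u v s i) (wall u v s i y) := by
  obtain ⟨-, h1, -, -, h2, -⟩ := step_cell (m := m) (adj := adj) hS u v s i (some y)
  refine ⟨h1, fun z hz => ?_⟩
  set P : Par := ⟨N, μ, S.Z⟩ with hP
  have h3 : P.cel u v s i + 3 * P.off u v ≤ (step S N μ m adj).q z := by
    have h4 := (SoundA_en (m := m) (adj := adj) hS hc y).trans (h.fits _ _ hz)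
    have h5 : (step S N μ m adj).p (wall u v s i y) =
      P.cel u v s i + 2 * P.off u v + P.sc s i * S.p y := rfl
    rw [h5, ← hP] at h4
    omega
  rcases z with v' | ⟨u', v', s', i', o⟩
  · have e : (step S N μ m adj).q (.inl v') = v' * P.Per + P.Wg + 1 := rfl
    have h4 := P.le_base u v s
    have h5 := P.base_le_cel u v s i
    have h6 := P.base_add_le (u := u) (v := v) u.2 v.2 s
    have h7 := P.cel_add_le (u := u) (v := v) u.2 v.2 s (i := i) i.2.le
    have h8 : gad u v s < v' := lt_of_mul_lt_mul_right (a := P.Per) (by omega) (Nat.zero_le _)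
    have h9 := Nat.mul_le_mul_right P.Per (Nat.succ_le_of_lt h8)
    rw [Nat.succ_eq_add_one] at h9
    omega
  · by_cases he : (u : ℕ) = u' ∧ (v : ℕ) = v' ∧ s = s' ∧ (i : ℕ) = i'
    · obtain ⟨e₁, e₂, rfl, e₄⟩ := he
      obtain rfl := Fin.ext e₁
      obtain rfl := Fin.ext e₂
      obtain rfl := Fin.ext e₄
      rcases o with _ | a
      · have e : (step S N μ m adj).q (.inr (u, v, s, i, none)) = P.cel u v s i + 2 * P.off u v :=
          rfl
        have h4 := P.W_pos hS.Z_pos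
        have h5 := P.four_W_le_off u v
        omega
      · exact absurd hz (hy a)
    · obtain ⟨-, -, h4, h5, h6, -⟩ := step_cell (m := m) (adj := adj) hS u' v' s' i' o
      rw [← hP] at h4 h5 h6
      rcases P.cel_disj (u := u) (v := v) (u' := u') (v' := v') (i := i) (i' := i') u.2 v.2 u'.2
        v'.2 i.2.le i'.2.le he with h7 | h7 <;> omega

/-- Restriction to a clean wall over which two arrows pass. -/
lemma restrict (hS : S.WF) {D' g : ℕ} (hsound : S.Sound D' κ g)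
    (h : (step S N μ m adj).Valid lab snk) (hκ : cnt (fun x => snk x = none) ≤ κ)
    (u v : Fin N) (s : Bool) (i : Fin μ) (hc : Clean lab u v s i)
    (hD : cnt (fun y : S.X => ¬ ∃ a, lab (wall u v s i y) = some (wall u v s i a)) ≤ D')
    {x₁ x₂ : SX N μ S.X} (hne : x₁ ≠ x₂) (h₁ : ∀ y, x₁ ≠ wall u v s i y)
    (h₂ : ∀ y, x₂ ≠ wall u v s i y)
    (c₁ : (step S N μ m adj).Cross snk ((⟨N, μ, S.Z⟩ : Par).th u v s i) x₁)
    (c₂ : (step S N μ m adj).Cross snk ((⟨N, μ, S.Z⟩ : Par).th u v s i) x₂) :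
    g + 2 ≤ cnt (fun x => snk x = none) := by
  have hw : Function.Injective (wall u v s i : S.X → SX N μ S.X) := fun a b e => by
    simpa [wall] using e
  obtain ⟨lab', hl⟩ := SoundA_pull hw lab
  obtain ⟨snk', hs⟩ := SoundA_pull hw snk
  have hv : S.Valid lab' snk' := by
    refine ⟨fun x x' a e e' => hw (h.lab_inj _ _ _ ((hl _ _).1 e) ((hl _ _).1 e')),
      fun x x' a e e' => hw (h.snk_inj _ _ _ ((hs _ _).1 e) ((hs _ _).1 e')), fun y z e => ?_⟩
    set P : Par := ⟨N, μ, S.Z⟩ with hP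
    have h1 := h.fits _ _ ((hs _ _).1 e)
    have h2 := SoundA_en (m := m) (adj := adj) hS hc y
    have e₁ : (step S N μ m adj).p (wall u v s i y) =
      P.cel u v s i + 2 * P.off u v + P.sc s i * S.p y := rfl
    have e₂ : (step S N μ m adj).q (wall u v s i z) =
      P.cel u v s i + 3 * P.off u v + P.sc s i * S.q z := rfl
    refine le_of_mul_le_mul_left ?_ (P.sc_pos hS.Z_pos s i)
    rw [Sys.en]
    rcases hy : lab' y with _ | a
    · rw [Option.elim_none, add_zero]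
      rw [← hP] at h2
      omega
    · have e₃ : (step S N μ m adj).l (wall u v s i a) = P.off u v + P.sc s i * S.l a := rfl
      rw [Sys.en, (hl _ _).1 hy, Option.elim_some, e₁, e₂, e₃] at h1
      rw [Option.elim_some, mul_add]
      omega
  have h1 : cnt (fun y => snk' y = none) + 2 ≤ cnt (fun x => snk x = none) := by
    refine le_trans ?_ ((SoundA_two hne c₁ c₂).trans (cross_le _ h (clear_th hS u v s i)))
    refine Nat.add_le_add_right (cnt_le_of_inj (wall u v s i) (fun y hy => ?_)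
      fun y y' _ _ e => hw e) 2
    refine ⟨⟨SoundA_cross hS h hc y fun a e => ?_, (h₁ y).symm⟩, (h₂ y).symm⟩
    rw [(hs _ _).2 e] at hy
    exact Option.some_ne_none _ hy
  have h2 := hsound lab' snk' hv (le_trans (cnt_mono fun y hy ⟨a, e⟩ => by
    rw [(hl _ _).2 e] at hy
    exact Option.some_ne_none _ hy) hD) (by omega)
  omega

end Crest.Agent.R318
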