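import Crest.Agent.R318.SoundA

/-! Soundness of a step, part B: long labels pass over a clean wall, mega labels over a gadget. -/

set_option autoImplicit false
open Finset

namespace Crest.Agent.R318

variable {S : Sys} {N μ m : ℕ} {adj : ℕ → ℕ → Bool}
  {lab snk : SX N μ S.X → Option (SX N μ S.X)} {κ D : ℕ}

/-- The source `x` carries a mega label that passes over all cells of gadget `g`. -/
def Mega (S : Sys) (N μ m : ℕ) (adj : ℕ → ℕ → Bool) (lab : SX N μ S.X → Option (SX N μ S.X))
    (g : ℕ) (x : SX N μ S.X) : Prop :=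
  (∃ w : Fin N, lab x = some (.inl w)) ∧
    (step S N μ m adj).p x ≤ g * (⟨N, μ, S.Z⟩ : Par).Per ∧
    (g + 1) * (⟨N, μ, S.Z⟩ : Par).Per ≤ (step S N μ m adj).en lab x

lemma SoundB_l_long (u v : Fin N) (huv : adj u v = true) (i : Fin μ) :
    (step S N μ m adj).l (.inr (u, v, false, i, none)) = 6 * (⟨N, μ, S.Z⟩ : Par).off u v := by
  simp [stepDat, Par.datO, huv]

lemma SoundB_p_some (u v : Fin N) (s : Bool) (i : Fin μ) (y : S.X) :
    (⟨N, μ, S.Z⟩ : Par).cel u v s i + 2 * (⟨N, μ, S.Z⟩ : Par).off u v ≤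
      (step S N μ m adj).p (.inr (u, v, s, i, some y)) := by
  simp [stepDat, Par.datW]

lemma SoundB_l_mega (w : Fin N) (hw : (w : ℕ) < m) :
    (step S N μ m adj).l (.inl w) = (⟨N, μ, S.Z⟩ : Par).Per + (⟨N, μ, S.Z⟩ : Par).Wg + 1 := by
  simp [stepDat, Par.datV, hw]

lemma SoundB_p_inl (w : Fin N) : (step S N μ m adj).p (.inl w) = w * (⟨N, μ, S.Z⟩ : Par).Per := by
  simp [stepDat, Par.datV]

lemma SoundB_en {T : Sys} {lab : T.X → Option T.X} {x a : T.X} (h : lab x = some a) :
    T.en lab x = T.p x + T.l a := by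
  simp [Sys.en, h]

/-- the clear point attached to a target cell -/
def SoundB_pt (P : Par) (u v : ℕ) (y : Bool × Option (Fin μ)) : ℕ :=
  match y.2 with
  | none => P.cel u v y.1 μ
  | some j => P.th u v y.1 j

/-- the gadget over which a mega label placed at `x` passes -/
def SoundB_tg {X : Type} : SX N μ X → ℕ
  | .inl v => v
  | .inr (u, v, s, _) => gad u v s + 1

lemma SoundB_tg_le {X : Type} (x : SX N μ X) : SoundB_tg x ≤ N := by
  rcases x with v | ⟨u, v, s, r⟩
  · exact v.2.le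
  · have := Par.gad_lt (⟨N, μ, 1⟩ : Par) (u := u) (v := v) u.2 v.2 s
    exact this

lemma SoundB_mega (hS : S.WF) {x : SX N μ S.X} {w : Fin N} (hw : (w : ℕ) < m)
    (hx : lab x = some (.inl w)) : Mega S N μ m adj lab (SoundB_tg x) x := by
  have hen := SoundB_en (T := step S N μ m adj) hx
  rw [SoundB_l_mega w hw] at hen
  refine ⟨⟨w, hx⟩, ?_, ?_⟩
  · rcases x with v | ⟨u, v, s, i, o⟩
    · rw [SoundB_p_inl]
      exact le_rfl
    · obtain ⟨-, h2, -, -, h5, -⟩ := step_cell (m := m) (adj := adj) hS u v s i o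
      have h6 := Par.cel_add_le (⟨N, μ, S.Z⟩ : Par) (u := u) (v := v) u.2 v.2 s (i := i) i.2.le
      have h7 := Par.base_add_le (⟨N, μ, S.Z⟩ : Par) (u := u) (v := v) u.2 v.2 s
      change _ ≤ (gad u v s + 1) * _
      omega
  · rw [hen]
    rcases x with v | ⟨u, v, s, i, o⟩
    · rw [SoundB_p_inl]
      change ((v : ℕ) + 1) * _ ≤ _
      rw [add_mul, one_mul]
      omega
    · obtain ⟨h1, -⟩ := step_cell (m := m) (adj := adj) hS u v s i o
      have h6 := Par.base_le_cel (⟨N, μ, S.Z⟩ : Par) u v s i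
      have h7 := Par.le_base (⟨N, μ, S.Z⟩ : Par) u v s
      have h8 : (⟨N, μ, S.Z⟩ : Par).Per = 2 * (⟨N, μ, S.Z⟩ : Par).Wg + 2 := rfl
      change (gad u v s + 1 + 1) * _ ≤ _
      rw [add_mul, add_mul, one_mul]
      omega

/-- For an edge, some long label passes over a clean wall. -/
lemma exists_long (hS : S.WF) (h : (step S N μ m adj).Valid lab snk)
    (hD : cnt (fun x => lab x = none) ≤ D) (hκ : cnt (fun x => snk x = none) ≤ κ)
    (hμ : kμ N κ D ≤ μ) (u v : Fin N) (huv : adj u v = true) :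
    ∃ (s : Bool) (i : Fin μ) (x : SX N μ S.X), Clean lab u v s i ∧ (∀ y, x ≠ wall u v s i y) ∧
      (∃ c, lab x = some (.inr c)) ∧
      (step S N μ m adj).Cross snk ((⟨N, μ, S.Z⟩ : Par).th u v s i) x := by
  by_contra hcon
  push Not at hcon
  set P : Par := ⟨N, μ, S.Z⟩ with hP
  have hoff : 0 < P.off u v := by
    have h1 := P.four_W_le_off u v
    have h2 := P.W_pos hS.Z_pos
    omega
  let a : Fin μ → SX N μ S.X := fun i => .inr (u, v, false, i, none)
  have ha : ∀ i i', a i = a i' → i = i' := fun i i' e => by simpa [a] using e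
  let Used : Fin μ → Prop := fun i => ∃ x, lab x = some (a i) ∧ cl1 x = u * N + v + 1
  have h1 : cnt (fun i => ¬ Used i) ≤ kE N κ D := by
    refine le_trans ?_ (lost_le hS h hD hκ u v)
    exact cnt_le_of_inj a (fun i hi => ⟨rfl, hi⟩) fun i i' _ _ e => ha i i' e
  let Q : Bool × Option (Fin μ) → Prop := fun y =>
    y.2 = none ∨ ∃ j, y.2 = some j ∧ ¬ Clean lab u v y.1 j
  have h2 : cnt Q ≤ kE N κ D + 2 := by
    refine (cnt_or_le _ _).trans ?_
    have h3 : cnt (fun y : Bool × Option (Fin μ) => y.2 = none) ≤ 2 := by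
      have h4 : cnt (fun y : Bool × Option (Fin μ) => y.2 = none) ≤ cnt (fun _ : Bool => True) :=
        cnt_le_of_inj (fun y => y.1) (fun _ _ => trivial) fun y y' hy hy' e =>
          Prod.ext e (hy.trans hy'.symm)
      rwa [cnt_true, Fintype.card_bool] at h4
    have h4 : cnt (fun y : Bool × Option (Fin μ) => ∃ j, y.2 = some j ∧ ¬ Clean lab u v y.1 j) ≤
        kE N κ D := by
      refine le_trans ?_ (unclean_le hS h hD hκ u v)
      refine cnt_le_of_rel (fun y w => y = (w.1, some w.2)) ?_ ?_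
      · rintro ⟨s, o⟩ ⟨j, hj, hc⟩
        exact ⟨(s, j), hc, Prod.ext rfl hj⟩
      · intro y y' w _ _ e e'
        exact e.trans e'.symm
    omega
  have h3 : cnt Used ≤ cnt Q * κ := by
    refine cnt_le_mul (fun i y => ∃ x, lab x = some (a i) ∧
      (step S N μ m adj).Cross snk (SoundB_pt P u v y) x) κ ?_ ?_
    · rintro i ⟨x, hx, hcl⟩
      have hen := SoundB_en (T := step S N μ m adj) hx
      rw [SoundB_l_long u v huv i] at hen
      rcases x with w | ⟨u', v', s, j, o⟩
      · simp [cl1] at hcl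
      have hcol : P.col u' v' = P.col u v := by
        have : (u' : ℕ) * N + v' + 1 = u * N + v + 1 := hcl
        change (u' : ℕ) * N + v' = u * N + v
        omega
      obtain ⟨e1, e2⟩ := P.col_inj v'.2 v.2 hcol
      obtain rfl : u' = u := Fin.ext e1
      obtain rfl : v' = v := Fin.ext e2
      obtain ⟨c1, c2, -, -, c5, -⟩ := step_cell (m := m) (adj := adj) hS u' v' s j o
      rw [← hP] at c1 c2 c5 hen
      rcases o with _ | y
      · have hc : (step S N μ m adj).Cross snk (P.th u' v' s j) (.inr (u', v', s, j, none)) :=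
          cross_of_en _ h c2 (by omega)
        refine ⟨(s, some j), Or.inr ⟨j, rfl, fun hcl' => ?_⟩, _, hx, hc⟩
        exact hcon s j _ hcl' (fun y => by simp) ⟨_, hx⟩ hc
      · have hp := SoundB_p_some (m := m) (adj := adj) u' v' s j y
        rw [← hP] at hp
        have hsucc := P.cel_succ u' v' s j
        by_cases hj : (j : ℕ) + 1 < μ
        · obtain ⟨d1, d2, -, -, d5, -⟩ :=
            step_cell (m := m) (adj := adj) hS u' v' s ⟨j + 1, hj⟩ none
          rw [← hP] at d1 d2 d5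
          simp only at d1 d2 d5
          have hc : (step S N μ m adj).Cross snk (P.th u' v' s (j + 1))
              (.inr (u', v', s, j, some y)) := cross_of_en _ h (by omega) (by omega)
          refine ⟨(s, some ⟨j + 1, hj⟩), Or.inr ⟨_, rfl, fun hcl' => ?_⟩, _, hx, hc⟩
          refine hcon s ⟨j + 1, hj⟩ _ hcl' (fun y' e => ?_) ⟨_, hx⟩ hc
          have : j = ⟨j + 1, hj⟩ := by
            simp only [wall, Sum.inr.injEq, Prod.mk.injEq] at e
            exact e.2.2.2.1
          have := congrArg Fin.val this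
          simp at this
        · have hj' : (j : ℕ) + 1 = μ := by have := j.2; omega
          rw [hj'] at hsucc
          have hc : (step S N μ m adj).Cross snk (P.cel u' v' s μ)
              (.inr (u', v', s, j, some y)) := cross_of_en _ h (by omega) (by omega)
          exact ⟨(s, none), Or.inl rfl, _, hx, hc⟩
    · intro y _
      have hcl : (step S N μ m adj).Clear (SoundB_pt P u v y) := by
        rcases y with ⟨s, _ | j⟩
        · exact clear_virt hS u v s
        · exact clear_th hS u v s j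
      refine le_trans ?_ ((cross_le _ h hcl).trans hκ)
      refine cnt_le_of_rel (fun i x => lab x = some (a i)) ?_ ?_
      · rintro i ⟨x, hx, hc⟩
        exact ⟨x, hc, hx⟩
      · intro i i' x _ _ e e'
        exact ha i i' (Option.some.inj (e.symm.trans e'))
  have h4 := cnt_add_not Used
  rw [Fintype.card_fin] at h4
  have h5 : cnt Q * κ ≤ (kE N κ D + 2) * κ := Nat.mul_le_mul_right κ h2
  unfold kμ at hμ
  omega

/-- Either two mega labels pass over one gadget, or many gadgets are covered. -/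
lemma exists_mega (hS : S.WF) (h : (step S N μ m adj).Valid lab snk)
    (hD : cnt (fun x => lab x = none) ≤ D) (hκ : cnt (fun x => snk x = none) ≤ κ) (hm : m ≤ N) :
    (∃ (g : Fin N) (x₁ x₂ : SX N μ S.X), x₁ ≠ x₂ ∧ Mega S N μ m adj lab g x₁ ∧
        Mega S N μ m adj lab g x₂) ∨
      ∃ C : Finset ℕ, C ⊆ range N ∧ m - D - κ ≤ C.card ∧
        ∀ g ∈ C, ∃ x, Mega S N μ m adj lab g x := by
  classical
  let A : SX N μ S.X → Prop := fun x => ∃ w : Fin N, (w : ℕ) < m ∧ lab x = some (.inl w)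
  have hA : ∀ x, A x → Mega S N μ m adj lab (SoundB_tg x) x := fun x ⟨w, hw, hx⟩ =>
    SoundB_mega hS hw hx
  have h1 : m ≤ cnt A + D := by
    have e1 := cnt_add_not fun w : Fin m => ∃ x, lab x = some (.inl (w.castLE hm))
    rw [Fintype.card_fin] at e1
    have e2 : cnt (fun w : Fin m => ∃ x, lab x = some (.inl (w.castLE hm))) ≤ cnt A := by
      refine cnt_le_of_rel (fun w x => lab x = some (.inl (w.castLE hm))) ?_ ?_
      · rintro w ⟨x, hx⟩
        exact ⟨x, ⟨_, by simp, hx⟩, hx⟩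
      · intro w w' x _ _ e e'
        have := Option.some.inj (e.symm.trans e')
        simpa using this
    have e3 : cnt (fun w : Fin m => ¬ ∃ x, lab x = some (.inl (w.castLE hm))) ≤
        cnt (fun a => ¬ ∃ x, lab x = some a) :=
      cnt_le_of_inj (fun w => .inl (w.castLE hm)) (fun _ hw => hw) fun w w' _ _ e => by
        simpa using e
    rw [cnt_unused h.lab_inj] at e3
    have e4 := le_trans e3 hD
    omega
  have h2 : cnt (fun x => A x ∧ ¬ SoundB_tg x < N) ≤ κ := by
    refine le_trans (cnt_mono ?_) ((cross_le _ h (clear_end hS)).trans hκ)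
    rintro x ⟨hx, hN⟩
    have e : SoundB_tg x = N := le_antisymm (SoundB_tg_le x) (not_lt.1 hN)
    obtain ⟨-, m1, m2⟩ := hA x hx
    rw [e] at m1 m2
    have h8 : (⟨N, μ, S.Z⟩ : Par).Per = 2 * (⟨N, μ, S.Z⟩ : Par).Wg + 2 := rfl
    rw [add_mul, one_mul] at m2
    exact cross_of_en _ h m1 (by omega)
  have h3 := cnt_split A fun x => SoundB_tg x < N
  by_cases hinj : ∀ x x', (A x ∧ SoundB_tg x < N) → (A x' ∧ SoundB_tg x' < N) →
      SoundB_tg x = SoundB_tg x' → x = x'
  · right
    refine ⟨(univ.filter fun x => A x ∧ SoundB_tg x < N).image SoundB_tg, ?_, ?_, ?_⟩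
    · intro g hg
      obtain ⟨x, hx, rfl⟩ := mem_image.1 hg
      exact mem_range.2 (mem_filter.1 hx).2.2
    · rw [card_image_of_injOn fun x hx x' hx' e =>
        hinj x x' (mem_filter.1 hx).2 (mem_filter.1 hx').2 e, ← cnt_eq]
      omega
    · intro g hg
      obtain ⟨x, hx, rfl⟩ := mem_image.1 hg
      exact ⟨x, hA x (mem_filter.1 hx).2.1⟩
  · left
    push Not at hinj
    obtain ⟨x, x', hx, hx', e, hne⟩ := hinj
    refine ⟨⟨SoundB_tg x, hx.2⟩, x, x', hne, hA x hx.1, ?_⟩
    have := hA x' hx'.1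
    rwa [← e] at this

/-- A mega arrow over a gadget passes over each wall of the gadget. -/
lemma Mega.cross (hS : S.WF) (h : (step S N μ m adj).Valid lab snk) (u v : Fin N) (s : Bool)
    (i : Fin μ) {x : SX N μ S.X} (hx : Mega S N μ m adj lab (gad u v s) x) :
    (∀ y, x ≠ wall u v s i y) ∧
      (step S N μ m adj).Cross snk ((⟨N, μ, S.Z⟩ : Par).th u v s i) x := by
  obtain ⟨-, m1, m2⟩ := hx
  have h6 := Par.base_le_cel (⟨N, μ, S.Z⟩ : Par) u v s i
  have h7 := Par.le_base (⟨N, μ, S.Z⟩ : Par) u v s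
  have h8 := Par.cel_add_le (⟨N, μ, S.Z⟩ : Par) (u := u) (v := v) u.2 v.2 s (i := i) i.2.le
  have h9 := Par.base_add_le (⟨N, μ, S.Z⟩ : Par) (u := u) (v := v) u.2 v.2 s
  constructor
  · rintro y rfl
    obtain ⟨c1, -⟩ := step_cell (m := m) (adj := adj) hS u v s i (some y)
    have : (step S N μ m adj).p (wall u v s i y) =
      (step S N μ m adj).p (.inr (u, v, s, i, some y)) := rfl
    omega
  · obtain ⟨c1, c2, -, -, c5, -⟩ := step_cell (m := m) (adj := adj) hS u v s i none
    exact cross_of_en _ h (by omega) (by omega)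

/-- **Soundness of a step.** -/
theorem step_sound (hS : S.WF) {g : ℕ} (hsound : S.Sound (kD N μ κ D) κ g) (hμ : kμ N κ D ≤ μ)
    (hm : m ≤ N) (hno : No N (m - D - κ) adj) : (step S N μ m adj).Sound D κ (g + 2) := by
  intro lab snk h hD hκ
  rcases exists_mega hS h hD hκ hm with ⟨u, x₁, x₂, hne, m₁, m₂⟩ | ⟨C, hC, hcard, hcov⟩
  · have h1 := unclean_le hS h hD hκ u u
    obtain ⟨i, hi⟩ : ∃ i : Fin μ, Clean lab u u false i := by
      by_contra hcon
      push Not at hcon
      have h2 : cnt (fun _ : Fin μ => True) ≤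
          cnt (fun w : Bool × Fin μ => ¬ Clean lab u u w.1 w.2) :=
        cnt_le_of_inj (fun i => (false, i)) (fun i _ => hcon i) fun i i' _ _ e => by simpa using e
      rw [cnt_true, Fintype.card_fin] at h2
      unfold kμ at hμ
      omega
    have e : (u : ℕ) = gad u u false := rfl
    rw [e] at m₁ m₂
    obtain ⟨a₁, c₁⟩ := m₁.cross hS h u u false i
    obtain ⟨a₂, c₂⟩ := m₂.cross hS h u u false i
    exact restrict hS hsound h hκ u u false i hi (wall_lost_le hS h hD hκ u u false i) hne a₁ a₂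
      c₁ c₂
  · obtain ⟨u, hu, v, hv, huv⟩ := hno C hC hcard
    obtain ⟨s, i, x₁, hc, a₁, ⟨c, hl⟩, c₁⟩ := exists_long hS h hD hκ hμ
      ⟨u, by simpa using hC hu⟩ ⟨v, by simpa using hC hv⟩ huv
    obtain ⟨x₂, m₂⟩ := hcov (gad u v s) (by cases s <;> simpa [gad])
    obtain ⟨a₂, c₂⟩ := Mega.cross hS h ⟨u, by simpa using hC hu⟩ ⟨v, by simpa using hC hv⟩ s i m₂
    refine restrict hS hsound h hκ _ _ s i hc (wall_lost_le hS h hD hκ _ _ s i) ?_ a₁ a₂ c₁ c₂
    rintro rfl
    obtain ⟨w, hw⟩ := m₂.1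
    rw [hl] at hw
    simp at hw

end Crest.Agent.R318
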